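import Vale.Agent.P147.Proj.Paths

/-!
# Lyapunov functions for walks with balanced, nearly round projection
-/

open MeasureTheory Set Filter Topology
open scoped ENNReal

namespace Vale.Agent.P147.Proj

variable {d k : ℕ}

/-- The projection attached to the vectors `u i`. -/
def pr (u : Fin d → Fin k → ℝ) (z : Site d) : Fin k → ℝ := fun j => ∑ i, (z i : ℝ) * u i j

/-- The squared Euclidean length. -/
def nsq (x : Fin k → ℝ) : ℝ := ∑ j, x j ^ 2

/-- The Euclidean inner product. -/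
def dot (x y : Fin k → ℝ) : ℝ := ∑ j, x j * y j

/-- The mean squared length of a projected step. -/
def rho (u : Fin d → Fin k → ℝ) (p : Row d) : ℝ := ∑ a, p.1 a * nsq (pr u (vec a))

/-- No projected drift, and no direction carries more than the share `c` of the projected variance. -/
def Balanced (u : Fin d → Fin k → ℝ) (c : ℝ) (p : Row d) : Prop :=
  (∀ j, ∑ a, p.1 a * pr u (vec a) j = 0) ∧
    ∀ θ, ∑ a, p.1 a * dot θ (pr u (vec a)) ^ 2 ≤ c * nsq θ * rho u p

variable {u : Fin d → Fin k → ℝ}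

lemma pr_add (y z : Site d) : pr u (y + z) = pr u y + pr u z := by
  funext j
  simp [pr, add_mul, Finset.sum_add_distrib]

lemma pr_zero : pr u (0 : Site d) = 0 := by funext j; simp [pr]

lemma nsq_nonneg (x : Fin k → ℝ) : 0 ≤ nsq x := Finset.sum_nonneg fun _ _ => sq_nonneg _

lemma nsq_pr_neg (z : Site d) : nsq (pr u (-z)) = nsq (pr u z) := by simp [nsq, pr]

lemma nsq_add (x y : Fin k → ℝ) : nsq (x + y) = nsq x + 2 * dot x y + nsq y := by
  simp only [nsq, dot, Pi.add_apply, Finset.mul_sum, ← Finset.sum_add_distrib]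
  exact Finset.sum_congr rfl fun _ _ => by ring

lemma two_dot_le (x y : Fin k → ℝ) {t : ℝ} (ht : 0 < t) :
    |2 * dot x y| ≤ t * nsq x + nsq y / t := by
  simp only [dot, nsq, Finset.mul_sum, Finset.sum_div, ← Finset.sum_add_distrib]
  refine (Finset.abs_sum_le_sum_abs _ _).trans (Finset.sum_le_sum fun j _ => ?_)
  rw [abs_le]
  constructor
  · have h := sq_nonneg (t * x j + y j)
    have : 0 ≤ (t * x j + y j) ^ 2 / t := div_nonneg h ht.le
    have e : (t * x j + y j) ^ 2 / t = t * x j ^ 2 + 2 * (x j * y j) + y j ^ 2 / t := by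
      field_simp; ring
    linarith
  · have h := sq_nonneg (t * x j - y j)
    have : 0 ≤ (t * x j - y j) ^ 2 / t := div_nonneg h ht.le
    have e : (t * x j - y j) ^ 2 / t = t * x j ^ 2 - 2 * (x j * y j) + y j ^ 2 / t := by
      field_simp; ring
    linarith

lemma rho_nonneg (p : Row d) : 0 ≤ rho u p :=
  Finset.sum_nonneg fun a _ => mul_nonneg (p.2.1 a) (nsq_nonneg _)

/-- A bound for every squared projected step. -/
def bigD (u : Fin d → Fin k → ℝ) : ℝ := 1 + ∑ a, nsq (pr u (vec a))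

lemma one_le_bigD : 1 ≤ bigD u := by
  have : 0 ≤ ∑ a, nsq (pr u (vec a)) := Finset.sum_nonneg fun a _ => nsq_nonneg _
  unfold bigD; linarith

lemma nsq_vec_le (a : Step d) : nsq (pr u (vec a)) ≤ bigD u := by
  have := Finset.single_le_sum (f := fun b => nsq (pr u (vec b))) (fun b _ => nsq_nonneg _)
    (Finset.mem_univ a)
  unfold bigD; linarith

lemma rho_le (p : Row d) : rho u p ≤ bigD u := by
  calc rho u p ≤ ∑ a, p.1 a * bigD u :=
        Finset.sum_le_sum fun a _ => mul_le_mul_of_nonneg_left (nsq_vec_le a) (p.2.1 a)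
    _ = bigD u := by rw [← Finset.sum_mul, p.2.2, one_mul]

lemma log_lower {e : ℝ} (h : |e| ≤ 1 / 4) :
    e - e ^ 2 / 2 - 2 * |e| ^ 3 ≤ Real.log (1 + e) := by
  have hlog := Real.abs_log_sub_add_sum_range_le (x := -e) (by rw [abs_neg]; linarith) 2
  simp only [Finset.sum_range_succ, Finset.sum_range_zero, sub_neg_eq_add, abs_neg] at hlog
  norm_num at hlog
  have hdiv : |e| ^ 3 / (1 - |e|) ≤ 2 * |e| ^ 3 := by
    rw [div_le_iff₀ (by linarith)]
    have : 0 ≤ |e| ^ 3 := by positivity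
    nlinarith
  have := (abs_le.1 (hlog.trans hdiv)).1
  linarith

lemma exp_upper {y : ℝ} (hy : |y| ≤ 1) : Real.exp y ≤ 1 + y + y ^ 2 / 2 + |y| ^ 3 := by
  have hexp := Real.exp_bound hy (n := 3) (by norm_num)
  simp only [Finset.sum_range_succ, Finset.sum_range_zero] at hexp
  norm_num [Nat.factorial] at hexp
  have := (abs_le.1 hexp).2
  have : 0 ≤ |y| ^ 3 := by positivity
  linarith

/-- A second-order upper bound for negative powers of `1 + e`. -/
lemma exists_rpow_bound {s τ : ℝ} (hs : 0 < s) (hτ : 0 < τ) :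
    ∃ ε : ℝ, 0 < ε ∧ ε ≤ 1 / 2 ∧ ∀ e : ℝ, |e| ≤ ε →
      (1 + e) ^ (-s) ≤ 1 - s * e + (s * (s + 1) / 2 + τ) * e ^ 2 := by
  set C : ℝ := 2 * s + 3 * s ^ 2 + 8 * s ^ 3 with C_def
  have hC : 0 < C := by positivity
  refine ⟨min (1 / 4) (min (1 / (2 * s)) (τ / C)), by positivity,
    (min_le_left _ _).trans (by norm_num), fun e he => ?_⟩
  have h4 : |e| ≤ 1 / 4 := he.trans (min_le_left _ _)
  have hs1 : |e| * (2 * s) ≤ 1 :=
    (le_div_iff₀ (by positivity)).1 (he.trans ((min_le_right _ _).trans (min_le_left _ _)))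
  have hτ1 : |e| * C ≤ τ :=
    (le_div_iff₀ hC).1 (he.trans ((min_le_right _ _).trans (min_le_right _ _)))
  have he1 : 0 < 1 + e := by linarith [neg_abs_le e]
  set a := |e| with a_def
  have ha : 0 ≤ a := abs_nonneg e
  have habs2 : e ^ 2 = a ^ 2 := (sq_abs e).symm
  set w := s * a ^ 2 / 2 + 2 * s * a ^ 3 with w_def
  have hw0 : 0 ≤ w := by positivity
  have hw : w ≤ s * a ^ 2 := by
    have : s * a ^ 2 * a ≤ s * a ^ 2 * (1 / 4) := mul_le_mul_of_nonneg_left h4 (by positivity)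
    nlinarith
  have hwa : w ≤ s * a := by
    have : s * a * a ≤ s * a * 1 := mul_le_mul_of_nonneg_left (by linarith) (by positivity)
    nlinarith
  set y := -s * e + w with y_def
  have hy : -s * Real.log (1 + e) ≤ y := by
    have h := mul_le_mul_of_nonneg_left (log_lower h4) hs.le
    rw [habs2, ← a_def] at h
    nlinarith
  have hse : |s * e| = s * a := by rw [abs_mul, abs_of_pos hs]
  have hyabs : |y| ≤ 2 * s * a := by
    rw [y_def]
    refine (abs_add_le _ _).trans ?_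
    rw [neg_mul, abs_neg, hse, abs_of_nonneg hw0]
    linarith
  have hy1 : |y| ≤ 1 := hyabs.trans (by linarith)
  have hy3 : |y| ^ 3 ≤ 8 * s ^ 3 * a ^ 3 := by
    have := pow_le_pow_left₀ (abs_nonneg y) hyabs 3
    linarith [show (2 * s * a) ^ 3 = 8 * s ^ 3 * a ^ 3 by ring]
  have hy2 : y ^ 2 / 2 ≤ s ^ 2 * a ^ 2 / 2 + 3 * s ^ 2 * a ^ 3 := by
    have e1 : y ^ 2 = s ^ 2 * a ^ 2 + (2 * (-(s * e)) + w) * w := by
      rw [y_def, ← habs2]; ring
    have h1 : 2 * (-(s * e)) + w ≤ 3 * (s * a) := by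
      have := neg_le_abs (s * e); linarith
    have h2 := mul_le_mul_of_nonneg_right h1 hw0
    have h3 := mul_le_mul_of_nonneg_left hw (show 0 ≤ 3 * (s * a) by positivity)
    nlinarith [show 0 ≤ s ^ 2 * a ^ 3 by positivity]
  calc (1 + e) ^ (-s) = Real.exp (-s * Real.log (1 + e)) := by
        rw [Real.rpow_def_of_pos he1, mul_comm]
    _ ≤ Real.exp y := Real.exp_le_exp.2 hy
    _ ≤ 1 + y + y ^ 2 / 2 + |y| ^ 3 := exp_upper hy1
    _ ≤ 1 - s * e + (s * (s + 1) / 2 + τ) * e ^ 2 := by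
        have hτ2 := mul_le_mul_of_nonneg_right hτ1 (sq_nonneg a)
        rw [habs2, y_def, w_def] at *
        rw [C_def] at hτ2
        nlinarith

/-- The family of Lyapunov functions. -/
noncomputable def pot (u : Fin d → Fin k → ℝ) (R s : ℝ) (z : Site d) : ℝ :=
  (R + nsq (pr u z)) ^ (-s)

lemma pot_pos {R s : ℝ} (hR : 0 < R) (z : Site d) : 0 < pot u R s z :=
  Real.rpow_pos_of_pos (by linarith [nsq_nonneg (pr u z)]) _

lemma pot_neg (R s : ℝ) (z : Site d) : pot u R s (-z) = pot u R s z := by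
  simp [pot, nsq_pr_neg]

lemma pot_le {R s : ℝ} (hR : 0 < R) (hs : 0 ≤ s) (z : Site d) : pot u R s z ≤ R ^ (-s) :=
  Real.rpow_le_rpow_of_nonpos hR (by linarith [nsq_nonneg (pr u z)]) (by linarith)

/-- The relative increment of `R + |x|²` when `x` moves by `ξ`. -/
noncomputable def inc (r : ℝ) (x ξ : Fin k → ℝ) : ℝ := (2 * dot x ξ + nsq ξ) / r

lemma sum_inc {c : ℝ} {p : Row d} (hp : Balanced u c p) (r : ℝ) (x : Fin k → ℝ) :
    ∑ a, p.1 a * inc r x (pr u (vec a)) = rho u p / r := by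
  have h0 : ∑ a, p.1 a * dot x (pr u (vec a)) = 0 := by
    simp only [dot, Finset.mul_sum]
    rw [Finset.sum_comm]
    refine Finset.sum_eq_zero fun j _ => ?_
    calc ∑ a, p.1 a * (x j * pr u (vec a) j) = x j * ∑ a, p.1 a * pr u (vec a) j := by
          rw [Finset.mul_sum]; exact Finset.sum_congr rfl fun a _ => by ring
      _ = 0 := by rw [hp.1 j, mul_zero]
  calc ∑ a, p.1 a * inc r x (pr u (vec a))
      = (2 * ∑ a, p.1 a * dot x (pr u (vec a)) + ∑ a, p.1 a * nsq (pr u (vec a))) / r := by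
        rw [Finset.mul_sum, ← Finset.sum_add_distrib, Finset.sum_div]
        exact Finset.sum_congr rfl fun a _ => by unfold inc; ring
    _ = rho u p / r := by rw [h0, mul_zero, zero_add]; rfl

lemma inc_sq_le {η r : ℝ} (hη : 0 < η) (x ξ : Fin k → ℝ) {D : ℝ} (hD : nsq ξ ≤ D) :
    inc r x ξ ^ 2 ≤ ((1 + η) * 4 * dot x ξ ^ 2 + (1 + 1 / η) * D * nsq ξ) / r ^ 2 := by
  rw [inc, div_pow]
  refine div_le_div_of_nonneg_right ?_ (sq_nonneg r)
  have h1 : (2 * dot x ξ + nsq ξ) ^ 2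
      ≤ (1 + η) * (2 * dot x ξ) ^ 2 + (1 + 1 / η) * nsq ξ ^ 2 := by
    have h := div_nonneg (sq_nonneg (η * (2 * dot x ξ) - nsq ξ)) hη.le
    have e : (η * (2 * dot x ξ) - nsq ξ) ^ 2 / η = η * (2 * dot x ξ) ^ 2
        - 2 * (2 * dot x ξ) * nsq ξ + (1 / η) * nsq ξ ^ 2 := by
      field_simp; ring
    nlinarith
  have h2 : nsq ξ ^ 2 ≤ D * nsq ξ := by
    rw [sq]; exact mul_le_mul_of_nonneg_right hD (nsq_nonneg _)
  have h3 : 0 ≤ 1 + 1 / η := by positivity
  have h4 := mul_le_mul_of_nonneg_left h2 h3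
  linarith [show (1 + η) * (2 * dot x ξ) ^ 2 = (1 + η) * 4 * dot x ξ ^ 2 by ring,
    show (1 + 1 / η) * (D * nsq ξ) = (1 + 1 / η) * D * nsq ξ by ring]

lemma sum_inc_sq {c η r : ℝ} {p : Row d} (hp : Balanced u c p) (hη : 0 < η) (hr : 0 < r)
    (x : Fin k → ℝ) (hx : nsq x ≤ r) :
    ∑ a, p.1 a * inc r x (pr u (vec a)) ^ 2
      ≤ ((1 + η) * 4 * max c 0 + (1 + 1 / η) * bigD u / r) * (rho u p / r) := by
  refine (Finset.sum_le_sum fun a _ =>
    mul_le_mul_of_nonneg_left (inc_sq_le hη x _ (nsq_vec_le a)) (p.2.1 a)).trans ?_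
  calc ∑ a, p.1 a * (((1 + η) * 4 * dot x (pr u (vec a)) ^ 2
          + (1 + 1 / η) * bigD u * nsq (pr u (vec a))) / r ^ 2)
      = ((1 + η) * 4 * ∑ a, p.1 a * dot x (pr u (vec a)) ^ 2
          + (1 + 1 / η) * bigD u * rho u p) / r ^ 2 := by
        rw [rho, Finset.mul_sum, Finset.mul_sum, ← Finset.sum_add_distrib, Finset.sum_div]
        exact Finset.sum_congr rfl fun a _ => by ring
    _ ≤ ((1 + η) * 4 * (max c 0 * r * rho u p) + (1 + 1 / η) * bigD u * rho u p) / r ^ 2 := by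
        refine div_le_div_of_nonneg_right (add_le_add ?_ le_rfl) (sq_nonneg r)
        refine mul_le_mul_of_nonneg_left ((hp.2 x).trans ?_) (by positivity)
        refine mul_le_mul_of_nonneg_right ?_ (rho_nonneg p)
        exact (mul_le_mul_of_nonneg_right (le_max_left c 0) (nsq_nonneg x)).trans
          (mul_le_mul_of_nonneg_left hx (le_max_right c 0))
    _ = ((1 + η) * 4 * max c 0 + (1 + 1 / η) * bigD u / r) * (rho u p / r) := by
        field_simp

lemma abs_inc_le {ε R : ℝ} (hε : 0 < ε) (hR : 0 < R) (x ξ : Fin k → ℝ) {D : ℝ} (hD : nsq ξ ≤ D)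
    (hDR : 2 * D * (1 + 2 / ε) ≤ R * ε) : |inc (R + nsq x) x ξ| ≤ ε := by
  have hr : 0 < R + nsq x := by linarith [nsq_nonneg x]
  rw [inc, abs_div, abs_of_pos hr, div_le_iff₀ hr]
  refine (abs_add_le _ _).trans ?_
  rw [abs_of_nonneg (nsq_nonneg _)]
  have h1 := two_dot_le x ξ (half_pos hε)
  have h3 : nsq ξ / (ε / 2) ≤ D * (2 / ε) := by
    rw [div_div_eq_mul_div, mul_div_assoc]; gcongr
  have h4 : 0 ≤ ε * nsq x := mul_nonneg hε.le (nsq_nonneg x)
  have h5 : 0 ≤ ε * R := by positivity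
  linarith [show 2 * D * (1 + 2 / ε) = 2 * D + 2 * (D * (2 / ε)) by ring,
    show ε / 2 * nsq x = (ε * nsq x) / 2 by ring,
    show ε * (R + nsq x) = ε * R + ε * nsq x by ring, mul_comm R ε]

/-- The choice of constants. -/
lemma exists_consts {c s : ℝ} (hs : 0 < s) (hc : 2 * (s + 1) * c < 1) :
    ∃ A η κ : ℝ, s * (s + 1) / 2 < A ∧ 0 < η ∧ 0 < κ ∧
      A * ((1 + η) * 4 * max c 0) ≤ s - 2 * κ := by
  set m := max c 0
  set X := 1 - 2 * (s + 1) * m with X_def
  have hX : 0 < X := by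
    rcases max_cases c 0 with ⟨h, -⟩ | ⟨h, -⟩ <;> simp only [X_def, m, h] <;> linarith
  have hcont : ContinuousAt (fun t : ℝ => (s * (s + 1) / 2 + t) * ((1 + t) * 4 * m)) 0 := by
    fun_prop
  have hlt : (s * (s + 1) / 2 + 0) * ((1 + 0) * 4 * m) < s - 2 * (s * X / 4) := by
    have : 0 < s * X := mul_pos hs hX
    rw [X_def] at this ⊢
    linarith [show (s * (s + 1) / 2 + 0) * ((1 + 0) * 4 * m) = s - s * (1 - 2 * (s + 1) * m) by ring]
  obtain ⟨t, ht, hpos⟩ := ((hcont.eventually_lt continuousAt_const hlt).filter_mono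
    nhdsWithin_le_nhds |>.and self_mem_nhdsWithin).exists (f := 𝓝[>] (0 : ℝ))
  have hpos' : 0 < t := hpos
  exact ⟨s * (s + 1) / 2 + t, t, s * X / 4, by linarith, hpos', by positivity, ht.le⟩

/-- The one-step decrease. -/
lemma exists_drop {c s : ℝ} (hs : 0 < s) (hc : 2 * (s + 1) * c < 1) (u : Fin d → Fin k → ℝ) :
    ∃ R₀ κ : ℝ, 1 ≤ R₀ ∧ 0 < κ ∧ ∀ R, R₀ ≤ R → ∀ p : Row d, Balanced u c p → ∀ z : Site d,
      ∑ a, p.1 a * pot u R s (z + vec a) + κ * rho u p * pot u R (s + 1) z ≤ pot u R s z := by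
  obtain ⟨A, η, κ, hA, hη, hκ, hAκ⟩ := exists_consts hs hc
  have hA0 : 0 < A := lt_trans (by positivity) hA
  obtain ⟨ε, hε, hε2, hrpow⟩ := exists_rpow_bound hs (sub_pos.2 hA)
  refine ⟨max (max 1 (2 * bigD u * (1 + 2 / ε) / ε)) (A * ((1 + 1 / η) * bigD u) / κ), κ,
    (le_max_left _ _).trans (le_max_left _ _), hκ, fun R hR p hp z => ?_⟩
  have hR1 : 1 ≤ R := ((le_max_left _ _).trans (le_max_left _ _)).trans hR
  have hR2 : 2 * bigD u * (1 + 2 / ε) ≤ R * ε :=
    (div_le_iff₀ hε).1 (((le_max_right _ _).trans (le_max_left _ _)).trans hR)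
  have hR3 : A * ((1 + 1 / η) * bigD u) ≤ R * κ :=
    (div_le_iff₀ hκ).1 ((le_max_right _ _).trans hR)
  set x := pr u z with x_def
  set r := R + nsq x with r_def
  have hn := nsq_nonneg x
  have hr : 0 < r := by linarith
  have hEabs : ∀ a, |inc r x (pr u (vec a))| ≤ ε := fun a =>
    abs_inc_le hε (by linarith) x _ (nsq_vec_le a) hR2
  have hpot : ∀ a, pot u R s (z + vec a) = r ^ (-s) * (1 + inc r x (pr u (vec a))) ^ (-s) := by
    intro a
    have h1 : 0 ≤ 1 + inc r x (pr u (vec a)) := by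
      linarith [neg_abs_le (inc r x (pr u (vec a))), hEabs a]
    rw [← Real.mul_rpow hr.le h1, pot, pr_add, nsq_add, inc, mul_add, mul_one,
      mul_div_cancel₀ _ hr.ne', r_def, x_def]
    ring_nf
  have hcoef : A * ((1 + η) * 4 * max c 0 + (1 + 1 / η) * bigD u / r) ≤ s - κ := by
    have h : A * ((1 + 1 / η) * bigD u / r) ≤ κ := by
      rw [← mul_div_assoc, div_le_iff₀ hr]
      exact hR3.trans (by rw [mul_comm κ]; exact mul_le_mul_of_nonneg_right (by linarith) hκ.le)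
    rw [mul_add]
    linarith
  have hsum : ∑ a, p.1 a * (1 + inc r x (pr u (vec a))) ^ (-s) ≤ 1 - κ * (rho u p / r) := by
    refine (Finset.sum_le_sum (g := fun a => p.1 a * (1 - s * inc r x (pr u (vec a))
      + A * inc r x (pr u (vec a)) ^ 2)) fun a _ => ?_).trans ?_
    · refine mul_le_mul_of_nonneg_left ?_ (p.2.1 a)
      have := hrpow _ (hEabs a)
      rwa [add_sub_cancel] at this
    · have e : ∑ a, p.1 a * (1 - s * inc r x (pr u (vec a)) + A * inc r x (pr u (vec a)) ^ 2)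
          = ∑ a, p.1 a - s * ∑ a, p.1 a * inc r x (pr u (vec a))
            + A * ∑ a, p.1 a * inc r x (pr u (vec a)) ^ 2 := by
        rw [Finset.mul_sum, Finset.mul_sum, ← Finset.sum_sub_distrib, ← Finset.sum_add_distrib]
        exact Finset.sum_congr rfl fun a _ => by ring
      rw [e, p.2.2, sum_inc hp]
      have h1 := mul_le_mul_of_nonneg_left
        (sum_inc_sq hp hη hr x (show nsq x ≤ r by linarith)) hA0.le
      have h2 := mul_le_mul_of_nonneg_right hcoef (div_nonneg (rho_nonneg (u := u) p) hr.le)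
      rw [← mul_assoc] at h1
      linarith [sub_mul s κ (rho u p / r)]
  have hz : pot u R (s + 1) z = r ^ (-s) / r := by
    rw [pot, ← x_def, ← r_def, ← Real.rpow_sub_one hr.ne']
    ring_nf
  have hz' : pot u R s z = r ^ (-s) := rfl
  have e : ∑ a, p.1 a * pot u R s (z + vec a)
      = r ^ (-s) * ∑ a, p.1 a * (1 + inc r x (pr u (vec a))) ^ (-s) := by
    rw [Finset.mul_sum]; exact Finset.sum_congr rfl fun a _ => by rw [hpot a]; ring
  rw [e, hz, hz']
  have h0 := mul_le_mul_of_nonneg_left hsum (Real.rpow_pos_of_pos hr (-s)).le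
  linarith [show κ * rho u p * (r ^ (-s) / r) = r ^ (-s) * (κ * (rho u p / r)) by ring]

end Vale.Agent.P147.Proj
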