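import Vale.Agent.P147.Proj.Second
import Vale.Agent.P147.Exist

/-!
# Constancy of harmonic functions of invariant events
-/

open MeasureTheory Set Filter Topology ProbabilityTheory
open scoped ENNReal NNReal

namespace Vale.Agent.P147.Proj

variable {d k : ℕ} {u : Fin d → Fin k → ℝ} {c : ℝ}

/-- An event invariant under the time shift and under translations. -/
def Invariant (A : Set (ℕ → Site d)) : Prop :=
  (∀ x, pcons x ⁻¹' A = A) ∧ ∀ z : Site d, (fun X k => X k - z) ⁻¹' A = A

variable {Q : Env d → Site d → Measure (ℕ → Site d)} {A : Set (ℕ → Site d)}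

/-- The squared gradient of the probability of `A`. -/
noncomputable def grad (Q : Env d → Site d → Measure (ℕ → Site d)) (A : Set (ℕ → Site d))
    (ω : Env d) (x : Site d) : ℝ :=
  ∑ a, (ω x).1 a * ((Q ω (x + vec a)).real A - (Q ω x).real A) ^ 2

lemma grad_nonneg (ω : Env d) (x : Site d) : 0 ≤ grad Q A ω x :=
  Finset.sum_nonneg fun a _ => mul_nonneg ((ω x).2.1 a) (sq_nonneg _)

lemma real_shift (hQ : IsQuenchedLaw Q) (hA : MeasurableSet A) (hinv : Invariant A) (ω : Env d)
    (z x : Site d) : (Q (shiftEnv z ω) x).real A = (Q ω (x + z)).real A := by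
  have hm : Measurable fun (X : ℕ → Site d) k => X k - z :=
    measurable_pi_lambda _ fun k => (measurable_of_countable fun y : Site d => y - z).comp
      (measurable_pi_apply k)
  rw [measureReal_def, measureReal_def, hQ.shift, Measure.map_apply hm hA, hinv.2 z]

lemma grad_shift (hQ : IsQuenchedLaw Q) (hA : MeasurableSet A) (hinv : Invariant A) (ω : Env d)
    (z x : Site d) : grad Q A (shiftEnv z ω) x = grad Q A ω (x + z) := by
  simp only [grad, real_shift hQ hA hinv, shiftEnv, add_right_comm x _ z]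

lemma measurable_grad (hQ : IsQuenchedLaw Q) (hA : MeasurableSet A) (x : Site d) :
    Measurable fun ω => grad Q A ω x :=
  Finset.measurable_sum _ fun a _ =>
    have h1 : Measurable fun ω : Env d => (ω x).1 a :=
      (measurable_pi_apply a).comp (measurable_subtype_coe.comp (measurable_pi_apply x))
    h1.mul (((hQ.measurable_real _ hA).sub (hQ.measurable_real _ hA)).pow_const 2)

/-- The energy bound along the killed walk. -/
lemma energy_le (hQ : IsQuenchedLaw Q) (hA : MeasurableSet A) (hinv : Invariant A) {lam : ℝ}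
    (hl : 0 ≤ lam) (hl2 : lam * bigD u ≤ 1 / 2) (ω : Env d) (x : Site d) :
    ∑' γ, wt (qw u lam) ω x γ * ENNReal.ofReal (grad Q A ω (x + dsp γ)) ≤ 1 := by
  set h := fun y => (Q ω y).real A with h_def
  have h01 : ∀ y, 0 ≤ h y ∧ h y ≤ 1 := fun y => hQ.real_nonneg_le_one ω y A
  have h2 : ∀ y, 0 ≤ 1 - h y ^ 2 := fun y => by nlinarith [h01 y]
  refine (tsum_wt_le (F := fun y => ENNReal.ofReal (grad Q A ω y))
    (V := fun y => ENNReal.ofReal (1 - h y ^ 2)) (fun y => ?_) x).trans
    (ENNReal.ofReal_le_one.2 (by nlinarith [h01 x]))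
  have hk := kill_le hl hl2 (ω y)
  have hr := mul_nonneg hl (rho_nonneg (u := u) (ω y))
  calc ENNReal.ofReal (grad Q A ω y)
        + ∑ a, qw u lam (ω y) a * ENNReal.ofReal (1 - h (y + vec a) ^ 2)
      ≤ ENNReal.ofReal (grad Q A ω y)
        + ∑ a, ENNReal.ofReal ((ω y).1 a * (1 - h (y + vec a) ^ 2)) := by
        gcongr with a
        rw [qw, ← ENNReal.ofReal_mul (mul_nonneg ((ω y).2.1 a) (by linarith))]
        refine ENNReal.ofReal_le_ofReal (mul_le_mul_of_nonneg_right ?_ (h2 _))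
        exact mul_le_of_le_one_right ((ω y).2.1 a) (by linarith)
    _ = ENNReal.ofReal (1 - h y ^ 2) := by
        rw [← ENNReal.ofReal_sum_of_nonneg fun a _ => mul_nonneg ((ω y).2.1 a) (h2 _),
          ← ENNReal.ofReal_add (grad_nonneg ω y)
            (Finset.sum_nonneg fun a _ => mul_nonneg ((ω y).2.1 a) (h2 _))]
        congr 1
        have hh : h y = ∑ a, (ω y).1 a * h (y + vec a) := by
          simp only [h_def]; rw [hQ.real_step ω y hA, hinv.1 y]
        rw [grad, ← Finset.sum_add_distrib]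
        calc ∑ a, ((ω y).1 a * (h (y + vec a) - h y) ^ 2 + (ω y).1 a * (1 - h (y + vec a) ^ 2))
            = (1 + h y ^ 2) * ∑ a, (ω y).1 a - 2 * h y * ∑ a, (ω y).1 a * h (y + vec a) := by
              rw [Finset.mul_sum, Finset.mul_sum, ← Finset.sum_sub_distrib]
              exact Finset.sum_congr rfl fun a _ => by ring
          _ = 1 - h y ^ 2 := by rw [(ω y).2.2, ← hh]; ring

lemma qw_zero_le {lam : ℝ} (hl : 0 ≤ lam) (hl2 : lam * bigD u ≤ 1 / 2) (p : Row d) (a : Step d) :
    qw u 0 p a ≤ 2 * qw u lam p a := by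
  have hk := kill_le hl hl2 p
  rw [qw, qw, ← ENNReal.ofReal_ofNat, ← ENNReal.ofReal_mul (by norm_num)]
  exact ENNReal.ofReal_le_ofReal (by nlinarith [p.2.1 a])

lemma wt_zero_le {lam : ℝ} (hl : 0 ≤ lam) (hl2 : lam * bigD u ≤ 1 / 2) (ω : Env d) (x : Site d)
    (σ : List (Step d)) : wt (qw u 0) ω x σ ≤ 2 ^ σ.length * wt (qw u lam) ω x σ := by
  induction σ generalizing x with
  | nil => simp [wt]
  | cons a σ ih =>
      calc qw u 0 (ω x) a * wt (qw u 0) ω (x + vec a) σ
          ≤ (2 * qw u lam (ω x) a) * (2 ^ σ.length * wt (qw u lam) ω (x + vec a) σ) :=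
            mul_le_mul' (qw_zero_le hl hl2 _ _) (ih _)
        _ = _ := by simp [wt, pow_succ]; ring

lemma wt_zero_pos {ω : Env d} (hω : ∀ x a, 0 < (ω x).1 a) (x : Site d) (σ : List (Step d)) :
    wt (qw u 0) ω x σ ≠ 0 := by
  induction σ generalizing x with
  | nil => simp [wt]
  | cons a σ ih => simp [wt, qw, hω x a, ih]

variable (μ : Measure (Row d)) [IsProbabilityMeasure μ]

lemma flow_grad_le (hQ : IsQuenchedLaw Q) (hA : MeasurableSet A) (hinv : Invariant A) {lam : ℝ}
    (hl : 0 ≤ lam) (hl2 : lam * bigD u ≤ 1 / 2) (σ : List (Step d)) :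
    ∫⁻ ω, flow u lam ω * (wt (qw u 0) ω 0 σ * ENNReal.ofReal (grad Q A ω (dsp σ))) ∂iid μ
      ≤ 2 ^ σ.length * ENNReal.ofReal (lam * bigD u) := by
  set q := qw u lam
  have hq : ∀ a, Measurable fun p => q p a := measurable_qw
  have hG : ∀ z, Measurable fun ω => ENNReal.ofReal (grad Q A ω z) := fun z =>
    ENNReal.measurable_ofReal.comp (measurable_grad hQ hA z)
  have hT : ∀ (x z : Site d) γ, Measurable fun ω => wt q ω x γ * ENNReal.ofReal (grad Q A ω z) :=
    fun x z γ => (measurable_wt hq x γ).mul (hG z)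
  calc ∫⁻ ω, flow u lam ω * (wt (qw u 0) ω 0 σ * ENNReal.ofReal (grad Q A ω (dsp σ))) ∂iid μ
      ≤ ∫⁻ ω, (2 ^ σ.length * ENNReal.ofReal (lam * bigD u)) *
          ∑' γ, wt q ω (-dsp γ) (γ ++ σ) * ENNReal.ofReal (grad Q A ω (dsp σ)) ∂iid μ := by
        refine lintegral_mono fun ω => ?_
        rw [flow, ← ENNReal.tsum_mul_right, ← ENNReal.tsum_mul_left]
        refine ENNReal.tsum_le_tsum fun γ => ?_
        rw [wt_append, neg_add_cancel]
        calc wt q ω (-dsp γ) γ * gw u lam (ω 0) *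
              (wt (qw u 0) ω 0 σ * ENNReal.ofReal (grad Q A ω (dsp σ)))
            ≤ wt q ω (-dsp γ) γ * ENNReal.ofReal (lam * bigD u) *
              (2 ^ σ.length * wt q ω 0 σ * ENNReal.ofReal (grad Q A ω (dsp σ))) := by
              gcongr
              · exact ENNReal.ofReal_le_ofReal (mul_le_mul_of_nonneg_left (rho_le _) hl)
              · exact wt_zero_le hl hl2 ω 0 σ
          _ = _ := by ring
    _ = (2 ^ σ.length * ENNReal.ofReal (lam * bigD u)) * ∫⁻ ω, ∑' γ,
          wt q ω 0 (γ ++ σ) * ENNReal.ofReal (grad Q A ω (dsp (γ ++ σ))) ∂iid μ := by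
        rw [lintegral_const_mul _ (Measurable.tsum fun γ => hT _ _ _),
          lintegral_tsum fun γ => (hT _ _ _).aemeasurable,
          lintegral_tsum fun γ => (hT _ _ _).aemeasurable]
        congr 1
        refine tsum_congr fun γ => ?_
        rw [← lintegral_shift μ (hT (-dsp γ) (dsp σ) (γ ++ σ)) (dsp γ)]
        simp [wt_shift, grad_shift hQ hA hinv, dsp_append, add_comm (dsp γ)]
    _ ≤ (2 ^ σ.length * ENNReal.ofReal (lam * bigD u)) * ∫⁻ _, 1 ∂iid μ := by
        refine mul_le_mul_right (lintegral_mono fun ω => ?_) _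
        refine (ENNReal.tsum_comp_le_tsum_of_injective (f := fun γ => γ ++ σ)
          (fun a b h => List.append_cancel_right h)
          (fun γ => wt q ω 0 γ * ENNReal.ofReal (grad Q A ω (dsp γ)))).trans ?_
        simpa using energy_le hQ hA hinv hl hl2 ω 0
    _ = _ := by simp

omit [IsProbabilityMeasure μ] in
/-- The mean of `gw` is linear in the killing rate. -/
lemma lintegral_gw {lam : ℝ} (hl : 0 ≤ lam) :
    ∫⁻ p, gw u lam p ∂μ = ENNReal.ofReal lam * ∫⁻ p, ENNReal.ofReal (rho u p) ∂μ := by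
  have hm : Measurable fun p : Row d => ENNReal.ofReal (rho u p) := measurable_rho.ennreal_ofReal
  rw [← lintegral_const_mul _ hm]
  exact lintegral_congr fun p => ENNReal.ofReal_mul hl

/-- Constancy in positive probability. -/
lemma flat_pos (hQ : IsQuenchedLaw Q) (hA : MeasurableSet A) (hinv : Invariant A) (hc : c < 1 / 4)
    (hrow : ∀ᵐ p ∂μ, Balanced u c p ∧ ∀ a, 0 < p.1 a) (hu : ∃ i j, u i j ≠ 0) :
    iid μ {ω | ∀ σ : List (Step d), (∀ a, 0 < (ω (dsp σ)).1 a) ∧ grad Q A ω (dsp σ) = 0} ≠ 0 := by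
  classical
  obtain ⟨i, j, hij⟩ := hu
  have hρpos : ∀ p : Row d, (∀ a, 0 < p.1 a) → 0 < rho u p := by
    intro p hp
    refine Finset.sum_pos' (fun a _ => mul_nonneg (p.2.1 a) (nsq_nonneg _))
      ⟨(i, true), Finset.mem_univ _, mul_pos (hp _) ?_⟩
    refine Finset.sum_pos' (fun _ _ => sq_nonneg _) ⟨j, Finset.mem_univ _, ?_⟩
    have : pr u (vec (i, true)) j = u i j := by simp [pr, vec, Pi.single_apply]
    rw [this]; positivity
  have hall : ∀ᵐ ω ∂iid μ, ∀ x, Balanced u c (ω x) ∧ ∀ a, 0 < (ω x).1 a :=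
    ae_all_iff.2 fun x =>
      (measurePreserving_eval_infinitePi (fun _ : Site d => μ) x).quasiMeasurePreserving.ae hrow
  -- constants
  set s := min 1 ((1 - 4 * c) / 4) with s_def
  have hs : 0 < s := lt_min one_pos (by linarith)
  have hsc : 2 * ((s + 1) + 1) * c < 1 := by
    have h1 : s ≤ (1 - 4 * c) / 4 := min_le_right _ _
    rcases le_total c 0 with h | h <;> nlinarith
  have hsc' : 2 * (s + 1) * c < 1 := by
    rcases le_total c 0 with h | h <;> nlinarith
  obtain ⟨R1, κ, hR1, hκ, hd1⟩ := exists_drop (by linarith : 0 < s + 1) hsc u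
  obtain ⟨R2, κ', hR2, hκ', hd2⟩ := exists_drop hs hsc' u
  set R := max R1 R2
  have hR : 0 < R := lt_of_lt_of_le one_pos (hR1.trans (le_max_left _ _))
  set rb := ∫⁻ p, ENNReal.ofReal (rho u p) ∂μ with rb_def
  have hrb : rb ≠ 0 := by
    have hm : Measurable fun p : Row d => ENNReal.ofReal (rho u p) := measurable_rho.ennreal_ofReal
    rw [rb_def, Ne, lintegral_eq_zero_iff hm]
    intro h
    obtain ⟨p, hp, hp'⟩ := (h.and hrow).exists
    have hp0 : ENNReal.ofReal (rho u p) = 0 := hp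
    exact absurd (ENNReal.ofReal_eq_zero.1 hp0) (not_le.2 (hρpos p hp'.2))
  set C := ENNReal.ofReal (1 / κ * R ^ (s + 1 + 1)) * ENNReal.ofReal (1 / κ' * R ^ (-s)) *
    (rb⁻¹ * rb⁻¹) with C_def
  have hC : C ≠ ∞ := by simp [C_def, ENNReal.mul_ne_top, hrb]
  -- the two moments
  have moments : ∀ lam : ℝ, 0 < lam → lam * bigD u ≤ 1 / 2 →
      ∫⁻ ω, flow u lam ω ∂iid μ = 1 ∧ ∫⁻ ω, flow u lam ω * flow u lam ω ∂iid μ ≤ C := by
    intro lam hl hl2
    have hg : ∫⁻ p, gw u lam p ∂μ ≠ 0 := by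
      rw [lintegral_gw μ hl.le]
      exact mul_ne_zero (by simp [hl]) hrb
    refine ⟨lintegral_flow μ hl hl2 ?_ hg, (lintegral_flow_sq μ hl.le hl2 hR hs.le hκ hκ'
      (hd1 R (le_max_left _ _)) (hd2 R (le_max_right _ _)) (hall.mono fun ω h x => (h x).1)).trans ?_⟩
    · exact hall.mono fun ω h x => hρpos _ (h x).2
    set EN := ∫⁻ ω, newMass (qw u lam) ω ∂iid μ
    have hEN : ENNReal.ofReal lam * EN ≤ rb⁻¹ := by
      rw [ENNReal.le_inv_iff_mul_le]
      have := newMass_mul_le μ hl.le hl2 (u := u)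
      rw [lintegral_gw μ hl.le] at this
      calc ENNReal.ofReal lam * EN * rb = EN * (ENNReal.ofReal lam * rb) := by ring
        _ ≤ 1 := this
    have e : ∀ t w : ℝ, ENNReal.ofReal (lam / t * w) = ENNReal.ofReal lam * ENNReal.ofReal (1 / t * w) :=
      fun t w => by rw [← ENNReal.ofReal_mul hl.le]; congr 1; ring
    calc _ = ENNReal.ofReal (1 / κ * R ^ (s + 1 + 1)) * ENNReal.ofReal (1 / κ' * R ^ (-s)) *
          ((ENNReal.ofReal lam * EN) * (ENNReal.ofReal lam * EN)) := by rw [e, e]; ring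
      _ ≤ _ := mul_le_mul_right (mul_le_mul' hEN hEN) _
  -- the test functional
  obtain ⟨w, hw, hwsum⟩ := ENNReal.exists_pos_sum_of_countable (one_ne_zero : (1 : ℝ≥0∞) ≠ 0)
    (List (Step d))
  set F : Env d → ℝ≥0∞ := fun ω => ∑' σ, (w σ : ℝ≥0∞) * (2 ^ σ.length : ℝ≥0∞)⁻¹ *
    (wt (qw u 0) ω 0 σ * ENNReal.ofReal (grad Q A ω (dsp σ))) with F_def
  have hterm : ∀ σ, Measurable fun ω =>
      wt (qw u 0) ω 0 σ * ENNReal.ofReal (grad Q A ω (dsp σ)) := fun σ =>
    (measurable_wt measurable_qw 0 σ).mul (ENNReal.measurable_ofReal.comp (measurable_grad hQ hA _))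
  have hF : Measurable F := Measurable.tsum fun σ => (hterm σ).const_mul _
  have hflow : ∀ lam, Measurable (flow (d := d) u lam) := fun lam => Measurable.tsum fun γ =>
    (measurable_wt measurable_qw _ γ).mul (measurable_gw.comp (measurable_pi_apply 0))
  have hUF : ∀ lam : ℝ, 0 < lam → lam * bigD u ≤ 1 / 2 →
      ∫⁻ ω, flow u lam ω * F ω ∂iid μ ≤ ENNReal.ofReal (lam * bigD u) := by
    intro lam hl hl2
    have hm : ∀ σ, Measurable fun ω => flow u lam ω *
        (wt (qw u 0) ω 0 σ * ENNReal.ofReal (grad Q A ω (dsp σ))) :=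
      fun σ => (hflow lam).mul (hterm σ)
    have e : ∀ ω, flow u lam ω * F ω = ∑' σ, (w σ : ℝ≥0∞) * (2 ^ σ.length : ℝ≥0∞)⁻¹ *
        (flow u lam ω * (wt (qw u 0) ω 0 σ * ENNReal.ofReal (grad Q A ω (dsp σ)))) := fun ω => by
      rw [F_def, ← ENNReal.tsum_mul_left]
      exact tsum_congr fun σ => mul_left_comm _ _ _
    simp only [e]
    rw [lintegral_tsum fun σ => ((hm σ).const_mul _).aemeasurable]
    calc ∑' σ, ∫⁻ ω, (w σ : ℝ≥0∞) * (2 ^ σ.length : ℝ≥0∞)⁻¹ * (flow u lam ω *
          (wt (qw u 0) ω 0 σ * ENNReal.ofReal (grad Q A ω (dsp σ)))) ∂iid μ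
        ≤ ∑' σ, (w σ : ℝ≥0∞) * ENNReal.ofReal (lam * bigD u) := by
          refine ENNReal.tsum_le_tsum fun σ => ?_
          rw [lintegral_const_mul _ (hm σ)]
          refine (mul_le_mul_right (flow_grad_le μ hQ hA hinv hl.le hl2 σ) _).trans (le_of_eq ?_)
          rw [mul_assoc, ← mul_assoc (2 ^ σ.length : ℝ≥0∞)⁻¹, ENNReal.inv_mul_cancel
            (pow_ne_zero _ (by norm_num)) (ENNReal.pow_ne_top (by norm_num)), one_mul]
      _ ≤ 1 * ENNReal.ofReal (lam * bigD u) := by
          rw [ENNReal.tsum_mul_right]; exact mul_le_mul_left hwsum.le _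
      _ = _ := one_mul _
  -- small values of the functional have probability bounded below
  set M : ℝ≥0∞ := 4 * C + 4 with M_def
  have hM0 : M ≠ 0 := by simp [M_def]
  have hM : M ≠ ∞ := by simp [M_def, ENNReal.mul_ne_top, hC]
  have hlow : ∀ n : ℕ, (2 * M)⁻¹ ≤ iid μ {ω | F ω ≤ ((n : ℝ≥0∞) + 1)⁻¹} := by
    intro n
    set B := {ω | F ω ≤ ((n : ℝ≥0∞) + 1)⁻¹} with B_def
    have hB : MeasurableSet B := measurableSet_le hF measurable_const
    have hD := one_le_bigD (u := u)
    set lam : ℝ := 1 / (4 * bigD u * (n + 1)) with lam_def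
    have hl : 0 < lam := by positivity
    have hlD : lam * bigD u = 1 / (4 * (n + 1)) := by rw [lam_def]; field_simp
    have hl2 : lam * bigD u ≤ 1 / 2 := by
      rw [hlD, div_le_div_iff₀ (by positivity) (by norm_num)]
      have : (0 : ℝ) ≤ n := n.cast_nonneg
      linarith
    obtain ⟨m1, m2⟩ := moments lam hl hl2
    have hpt : ∀ ω, flow u lam ω ≤ ((n : ℝ≥0∞) + 1) * (flow u lam ω * F ω)
        + (M * B.indicator 1 ω + flow u lam ω * flow u lam ω * M⁻¹) := by
      intro ω
      by_cases h : ω ∈ B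
      · refine le_trans ?_ le_add_self
        rcases le_total (flow u lam ω) M with h' | h'
        · exact le_trans (by simpa [indicator_of_mem h] using h') le_self_add
        · refine le_trans ?_ le_add_self
          rw [← div_eq_mul_inv, ENNReal.le_div_iff_mul_le (Or.inl hM0) (Or.inl hM)]
          exact mul_le_mul_right h' _
      · refine le_trans ?_ le_self_add
        have h1 : 1 ≤ ((n : ℝ≥0∞) + 1) * F ω := by
          have h2 : ((n : ℝ≥0∞) + 1)⁻¹ ≤ F ω :=
            (not_le.1 (show ¬ F ω ≤ ((n : ℝ≥0∞) + 1)⁻¹ from h)).le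
          calc (1 : ℝ≥0∞) = ((n : ℝ≥0∞) + 1) * ((n : ℝ≥0∞) + 1)⁻¹ :=
                (ENNReal.mul_inv_cancel (by simp) (by simp)).symm
            _ ≤ _ := mul_le_mul_right h2 _
        calc flow u lam ω = flow u lam ω * 1 := (mul_one _).symm
          _ ≤ flow u lam ω * (((n : ℝ≥0∞) + 1) * F ω) := mul_le_mul_right h1 _
          _ = _ := by ring
    have hsum : (1 : ℝ≥0∞) ≤ 1 / 4 + (M * iid μ B + 1 / 4) := by
      calc (1 : ℝ≥0∞) = ∫⁻ ω, flow u lam ω ∂iid μ := m1.symm
        _ ≤ _ := lintegral_mono hpt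
        _ = ((n : ℝ≥0∞) + 1) * ∫⁻ ω, flow u lam ω * F ω ∂iid μ +
            (M * iid μ B + (∫⁻ ω, flow u lam ω * flow u lam ω ∂iid μ) * M⁻¹) := by
          have a1 : Measurable fun ω => ((n : ℝ≥0∞) + 1) * (flow u lam ω * F ω) :=
            ((hflow lam).mul hF).const_mul _
          have a2 : Measurable fun ω => flow u lam ω * flow u lam ω :=
            (hflow lam).mul (hflow lam)
          have a3 : Measurable fun ω => M * B.indicator 1 ω :=
            (measurable_one.indicator hB).const_mul _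
          rw [lintegral_add_left a1, lintegral_add_left a3,
            lintegral_const_mul (f := fun ω => flow u lam ω * F ω) _ ((hflow lam).mul hF),
            lintegral_const_mul _ (measurable_one.indicator hB), lintegral_mul_const _ a2,
            lintegral_indicator_one hB]
        _ ≤ _ := by
          refine add_le_add ?_ (add_le_add le_rfl ?_)
          · refine (mul_le_mul_right (hUF lam hl hl2) _).trans (le_of_eq ?_)
            rw [hlD, show ((n : ℝ≥0∞) + 1) = ENNReal.ofReal ((n : ℝ) + 1) by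
              rw [ENNReal.ofReal_add (Nat.cast_nonneg _) zero_le_one, ENNReal.ofReal_natCast,
                ENNReal.ofReal_one], ← ENNReal.ofReal_mul (by positivity)]
            rw [show ((n : ℝ) + 1) * (1 / (4 * (n + 1))) = 1 / 4 by field_simp,
              ENNReal.ofReal_div_of_pos (by norm_num)]
            simp
          · refine (mul_le_mul_left m2 _).trans ?_
            rw [← div_eq_mul_inv, ENNReal.div_le_iff_le_mul (Or.inl hM0) (Or.inl hM), M_def,
              mul_add, ← mul_assoc, one_div, ENNReal.inv_mul_cancel (by norm_num) (by norm_num),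
              one_mul]
            exact le_self_add
    by_contra hcon
    have hlt : M * iid μ B < 1 / 2 := by
      calc M * iid μ B < M * (2 * M)⁻¹ := ENNReal.mul_lt_mul_right hM0 hM (not_le.1 hcon)
        _ = 1 / 2 := by
          rw [ENNReal.mul_inv (Or.inl two_ne_zero) (Or.inl (by norm_num)), mul_left_comm,
            ENNReal.mul_inv_cancel hM0 hM, mul_one, one_div]
    have htop : M * iid μ B ≠ ∞ := ENNReal.mul_ne_top hM (measure_ne_top _ _)
    have := (ENNReal.toReal_le_toReal ENNReal.one_ne_top (by simp [htop])).2 hsum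
    rw [ENNReal.toReal_add (by simp) (by simp [htop]), ENNReal.toReal_add htop (by simp)] at this
    have hlt' := (ENNReal.toReal_lt_toReal htop (by simp)).2 hlt
    norm_num at this hlt'
    linarith
  have hzero : (2 * M)⁻¹ ≤ iid μ {ω | F ω = 0} := by
    have hanti : Antitone fun n : ℕ => {ω | F ω ≤ ((n : ℝ≥0∞) + 1)⁻¹} := fun a b hab ω hω =>
      le_trans (show F ω ≤ ((b : ℝ≥0∞) + 1)⁻¹ from hω) (ENNReal.inv_le_inv.2 (by gcongr))
    have hinter : (⋂ n : ℕ, {ω | F ω ≤ ((n : ℝ≥0∞) + 1)⁻¹}) = {ω | F ω = 0} := by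
      ext ω
      simp only [mem_iInter, mem_setOf_eq]
      refine ⟨fun h => ?_, fun h n => by simp [h]⟩
      by_contra hne
      obtain ⟨n, hn⟩ := ENNReal.exists_inv_nat_lt hne
      exact absurd (h n) (not_le.2 (lt_of_le_of_lt (ENNReal.inv_le_inv.2 le_self_add) hn))
    rw [← hinter]
    refine ge_of_tendsto' (tendsto_measure_iInter_atTop
      (fun n => (measurableSet_le hF measurable_const).nullMeasurableSet) hanti
      ⟨0, measure_ne_top _ _⟩) hlow
  intro hnull
  have : iid μ {ω | F ω = 0} = 0 := by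
    refine measure_mono_null_ae ?_ hnull
    filter_upwards [hall] with ω hω h0
    intro σ
    refine ⟨fun a => (hω _).2 a, ?_⟩
    have h1 := ENNReal.tsum_eq_zero.1 (show F ω = 0 from h0) σ
    simp [wt_zero_pos (u := u) (fun x a => (hω x).2 a), (hw σ).ne'] at h1
    exact le_antisymm h1 (grad_nonneg ω _)
  rw [this, nonpos_iff_eq_zero, ENNReal.inv_eq_zero] at hzero
  exact ENNReal.mul_ne_top (by norm_num) hM hzero

lemma exists_list (z : Site d) : ∃ σ : List (Step d), dsp σ = z := by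
  classical
  let S : AddSubgroup (Site d) :=
    { carrier := {z | (∃ σ, dsp σ = z) ∧ ∃ σ, dsp σ = -z}
      zero_mem' := ⟨⟨[], rfl⟩, ⟨[], by simp⟩⟩
      add_mem' := by
        rintro a b ⟨⟨σ, hσ⟩, τ, hτ⟩ ⟨⟨σ', hσ'⟩, τ', hτ'⟩
        exact ⟨⟨σ ++ σ', by rw [dsp_append, hσ, hσ']⟩, ⟨τ' ++ τ, by
          rw [dsp_append, hτ, hτ', neg_add_rev]⟩⟩
      neg_mem' := by
        rintro a ⟨h1, h2⟩
        exact ⟨h2, by simpa using h1⟩ }
  suffices z ∈ S from this.1
  rw [← Finset.univ_sum_single z]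
  refine AddSubgroup.sum_mem _ fun i _ => ?_
  have h1 : (Pi.single i 1 : Site d) ∈ S :=
    ⟨⟨[(i, true)], by simp [dsp, vec]⟩, ⟨[(i, false)], by simp [dsp, vec, Pi.single_neg]⟩⟩
  have : (Pi.single i (z i) : Site d) = z i • (Pi.single i 1 : Site d) := by
    rw [← Pi.single_smul]; simp
  rw [this]
  exact AddSubgroup.zsmul_mem _ h1 _

/-- The zero-one law for invariant events. -/
theorem zero_one_invariant (hQ : IsQuenchedLaw Q) (hA : MeasurableSet A) (hinv : Invariant A)
    (hc : c < 1 / 4) (hrow : ∀ᵐ p ∂μ, Balanced u c p ∧ ∀ a, 0 < p.1 a)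
    (hu : ∃ i j, u i j ≠ 0) :
    ∃ q : ℝ≥0∞, (q = 0 ∨ q = 1) ∧ (∀ᵐ ω ∂iid μ, ∀ x, Q ω x A = q) ∧
      ∫⁻ ω, Q ω 0 A ∂iid μ = q := by
  classical
  obtain ⟨i, hu'⟩ := hu
  set e : Site d := Pi.single i (1 : ℤ)
  have herg := ergodic_iid μ i
  set h := fun ω x => (Q ω x).real A with h_def
  have hm : ∀ x, Measurable fun ω => h ω x := fun x => hQ.measurable_real x hA
  have hsh : ∀ ω x, h (shiftEnv e ω) x = h ω (x + e) := fun ω x => real_shift hQ hA hinv ω e x
  set E0 := {ω | ∀ x y, h ω x = h ω y} with E0_def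
  have hE0m : MeasurableSet E0 := by
    simp only [E0_def, setOf_forall]
    exact MeasurableSet.iInter fun x => MeasurableSet.iInter fun y =>
      measurableSet_eq_fun (hm x) (hm y)
  have hE0inv : shiftEnv e ⁻¹' E0 = E0 := by
    ext ω
    simp only [E0_def, mem_preimage, mem_setOf_eq, hsh]
    exact ⟨fun H x y => by simpa using H (x - e) (y - e), fun H x y => H _ _⟩
  have hsub : {ω : Env d | ∀ σ : List (Step d),
      (∀ a, 0 < (ω (dsp σ)).1 a) ∧ grad Q A ω (dsp σ) = 0} ⊆ E0 := by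
    intro ω hω
    have step : ∀ z a, h ω (z + vec a) = h ω z := by
      intro z a
      obtain ⟨σ, rfl⟩ := exists_list z
      obtain ⟨hp, hg⟩ := hω σ
      have := (Finset.sum_eq_zero_iff_of_nonneg fun b _ =>
        mul_nonneg ((ω _).2.1 b) (sq_nonneg _)).1 hg a (Finset.mem_univ a)
      simpa [sub_eq_zero, (hp a).ne', h_def] using this
    have path : ∀ (σ : List (Step d)) z, h ω (z + dsp σ) = h ω z := by
      intro σ
      induction σ with
      | nil => simp
      | cons a σ ih => intro z; rw [dsp_cons, ← add_assoc, ih, step]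
    intro x y
    obtain ⟨σ, hσ⟩ := exists_list (x - y)
    rw [← path σ y, hσ, add_sub_cancel]
  have hflat : ∀ᵐ ω ∂iid μ, ω ∈ E0 := by
    rcases eventuallyConst_set.1 (herg.aeconst_set hE0m hE0inv) with h1 | h1
    · exact h1
    · exact absurd (measure_mono_null hsub (measure_eq_zero_iff_ae_notMem.2 h1))
        (flat_pos μ hQ hA hinv hc hrow ⟨i, hu'⟩)
  set G := {ω | ω ∈ E0 ∧ h ω 0 = 1} with G_def
  have hGm : MeasurableSet G :=
    hE0m.inter (measurableSet_eq_fun (hm 0) measurable_const)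
  have hGinv : shiftEnv e ⁻¹' G = G := by
    ext ω
    have h0 : shiftEnv e ω ∈ E0 ↔ ω ∈ E0 := by
      rw [← mem_preimage, hE0inv]
    simp only [G_def, mem_preimage, mem_setOf_eq, h0, hsh, zero_add]
    refine and_congr_right fun hω => ?_
    rw [show h ω e = h ω 0 from hω e 0]
  have hval : ∀ ω ∈ E0, h ω 0 = 0 ∨ h ω 0 = 1 := fun ω hω =>
    hQ.zero_one ω hA hinv.1 fun x => hω x 0
  have hq : ∀ ω x, Q ω x A = ENNReal.ofReal (h ω x) := by
    intro ω x
    haveI := hQ.prob ω x
    exact (ofReal_measureReal (measure_ne_top _ _)).symm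
  obtain ⟨q, hq01, hqe⟩ : ∃ q : ℝ≥0∞, (q = 0 ∨ q = 1) ∧ ∀ᵐ ω ∂iid μ, ∀ x, Q ω x A = q := by
    rcases eventuallyConst_set.1 (herg.aeconst_set hGm hGinv) with h1 | h1
    · refine ⟨1, Or.inr rfl, ?_⟩
      filter_upwards [h1] with ω hω x
      rw [hq, hω.1 x 0, hω.2, ENNReal.ofReal_one]
    · refine ⟨0, Or.inl rfl, ?_⟩
      filter_upwards [h1, hflat] with ω hω hω0 x
      have : h ω 0 = 0 := (hval ω hω0).resolve_right fun h' => hω ⟨hω0, h'⟩
      rw [hq, hω0 x 0, this, ENNReal.ofReal_zero]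
  refine ⟨q, hq01, hqe, ?_⟩
  rw [lintegral_congr_ae (hqe.mono fun ω hω => hω 0)]
  simp

/-- Escape in a direction is an invariant event. -/
lemma invariant_dirEscape (l : Fin d → ℝ) :
    Invariant (dirEscape l) ∧ MeasurableSet (dirEscape l) := by
  refine ⟨⟨fun x => ?_, fun z => ?_⟩, ?_⟩
  · ext X
    exact (tendsto_add_atTop_iff_nat (f := fun k => ∑ j, l j * (pcons x X k j : ℝ)) 1).symm
  · ext X
    simp only [dirEscape, mem_preimage, mem_setOf_eq, Pi.sub_apply, Int.cast_sub, mul_sub,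
      Finset.sum_sub_distrib, sub_eq_add_neg]
    constructor
    · intro h
      have := tendsto_atTop_add_const_right atTop (∑ j, l j * (z j : ℝ)) h
      simpa [sub_eq_add_neg, mul_add, mul_neg, Finset.sum_add_distrib, add_assoc] using this
    · intro h
      have := tendsto_atTop_add_const_right atTop (-∑ j, l j * (z j : ℝ)) h
      simpa [sub_eq_add_neg, mul_add, mul_neg, Finset.sum_add_distrib, add_assoc] using this
  · have hmf : ∀ n, Measurable fun X : ℕ → Site d => ∑ j, l j * (X n j : ℝ) := fun n =>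
      Finset.measurable_sum _ fun j _ => measurable_const.mul
        ((measurable_of_countable (fun y : ℤ => (y : ℝ))).comp
          ((measurable_pi_apply j).comp (measurable_pi_apply n)))
    have e : dirEscape l = ⋂ M : ℕ, ⋃ N : ℕ, ⋂ n : ℕ, ⋂ (_ : N ≤ n),
        {X : ℕ → Site d | (M : ℝ) ≤ ∑ j, l j * (X n j : ℝ)} := by
      ext X
      simp only [dirEscape, mem_setOf_eq, mem_iInter, mem_iUnion, tendsto_atTop,
        eventually_atTop]
      refine ⟨fun h M => h M, fun h b => ?_⟩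
      obtain ⟨N, hN⟩ := h ⌈b⌉₊
      exact ⟨N, fun n hn => (Nat.le_ceil b).trans (hN n hn)⟩
    rw [e]
    exact MeasurableSet.iInter fun M => MeasurableSet.iUnion fun N => MeasurableSet.iInter fun n =>
      MeasurableSet.iInter fun _ => measurableSet_le measurable_const (hmf n)

end Vale.Agent.P147.Proj
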