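import Vale.Agent.P147.Proj.Lyapunov

/-!
# The killed flow through a site has mean one and bounded second moment
-/

open MeasureTheory Set Filter Topology ProbabilityTheory
open scoped ENNReal

namespace Vale.Agent.P147.Proj

variable {d k : ℕ}

/-- Step weights of the walk killed at rate `lam * rho`. -/
noncomputable def qw (u : Fin d → Fin k → ℝ) (lam : ℝ) (p : Row d) (a : Step d) : ℝ≥0∞ :=
  ENNReal.ofReal (p.1 a * (1 - lam * rho u p))

/-- The killing probability. -/
noncomputable def gw (u : Fin d → Fin k → ℝ) (lam : ℝ) (p : Row d) : ℝ≥0∞ :=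
  ENNReal.ofReal (lam * rho u p)

/-- A row at each site with balanced projection of positive variance. -/
def Good (u : Fin d → Fin k → ℝ) (c : ℝ) (ω : Env d) : Prop :=
  ∀ x, Balanced u c (ω x) ∧ 0 < rho u (ω x)

/-- The iid law of environments. -/
noncomputable abbrev iid (μ : Measure (Row d)) : Measure (Env d) :=
  Measure.infinitePi fun _ : Site d => μ

variable {u : Fin d → Fin k → ℝ} {lam : ℝ}

lemma measurable_rho : Measurable fun p : Row d => rho u p :=
  Finset.measurable_sum _ fun a _ =>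
    ((measurable_pi_apply a).comp measurable_subtype_coe).mul_const _

lemma measurable_qw (a : Step d) : Measurable fun p : Row d => qw u lam p a :=
  ENNReal.measurable_ofReal.comp (((measurable_pi_apply a).comp measurable_subtype_coe).mul
    ((measurable_rho.const_mul lam).const_sub 1))

lemma measurable_gw : Measurable fun p : Row d => gw u lam p :=
  ENNReal.measurable_ofReal.comp (measurable_rho.const_mul lam)

lemma kill_le (hl : 0 ≤ lam) (hl2 : lam * bigD u ≤ 1 / 2) (p : Row d) : lam * rho u p ≤ 1 / 2 :=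
  (mul_le_mul_of_nonneg_left (rho_le p) hl).trans hl2

lemma sum_qw (hl : 0 ≤ lam) (hl2 : lam * bigD u ≤ 1 / 2) (p : Row d) :
    gw u lam p + ∑ a, qw u lam p a = 1 := by
  have h := kill_le hl hl2 p
  rw [gw, qw_def_sum, ← ENNReal.ofReal_add (mul_nonneg hl (rho_nonneg p)) (by linarith)]
  · simp
where
  qw_def_sum : ∑ a, qw u lam p a = ENNReal.ofReal (1 - lam * rho u p) := by
    have h := kill_le hl hl2 p
    simp only [qw]
    rw [← ENNReal.ofReal_sum_of_nonneg fun a _ => mul_nonneg (p.2.1 a) (by linarith),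
      ← Finset.sum_mul, p.2.2, one_mul]

lemma kill_mass_le (hl : 0 ≤ lam) (hl2 : lam * bigD u ≤ 1 / 2) (ω : Env d) (x : Site d) :
    ∑' γ, wt (qw u lam) ω x γ * gw u lam (ω (x + dsp γ)) ≤ 1 :=
  tsum_wt_le (F := fun y => gw u lam (ω y)) (V := fun _ => 1)
    (fun y => by simp [sum_qw hl hl2]) x

lemma len_sum_le (hl : 0 ≤ lam) (hl2 : lam * bigD u ≤ 1 / 2) (ω : Env d) (N : ℕ) (x : Site d) :
    (∑' γ, if γ.length = N then wt (qw u lam) ω x γ else 0)
      + ∑ γ ∈ short N, wt (qw u lam) ω x γ * gw u lam (ω (x + dsp γ)) = 1 := by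
  rw [tsum_eq_sum (s := short (N + 1)) fun γ hγ => by
    simp only [mem_short, not_lt] at hγ
    rw [if_neg (by omega)]]
  induction N generalizing x with
  | zero => simp [short, wt]
  | succ N ih =>
      rw [sum_short_succ (N + 1), sum_short_succ N]
      simp only [List.length_nil, List.length_cons, add_left_inj, wt, dsp_nil, dsp_cons, add_zero,
        one_mul, if_neg (Nat.succ_ne_zero N).symm, zero_add]
      rw [add_left_comm, ← Finset.sum_add_distrib]
      conv_rhs => rw [← sum_qw hl hl2 (ω x)]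
      congr 1
      refine Finset.sum_congr rfl fun a _ => ?_
      calc ((∑ γ ∈ short (N + 1), if γ.length = N then qw u lam (ω x) a *
            wt (qw u lam) ω (x + vec a) γ else 0) + ∑ γ ∈ short N, qw u lam (ω x) a *
            wt (qw u lam) ω (x + vec a) γ * gw u lam (ω (x + (vec a + dsp γ))))
          = qw u lam (ω x) a * ((∑ γ ∈ short (N + 1), if γ.length = N then
              wt (qw u lam) ω (x + vec a) γ else 0) + ∑ γ ∈ short N,
              wt (qw u lam) ω (x + vec a) γ * gw u lam (ω (x + vec a + dsp γ))) := by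
            simp only [mul_add, Finset.mul_sum, mul_ite, mul_zero, mul_assoc, add_assoc]
        _ = qw u lam (ω x) a := by rw [ih, mul_one]

lemma len_le_one (hl : 0 ≤ lam) (hl2 : lam * bigD u ≤ 1 / 2) (ω : Env d) (N : ℕ) (x : Site d) :
    (∑' γ, if γ.length = N then wt (qw u lam) ω x γ else 0) ≤ 1 :=
  le_self_add.trans_eq (len_sum_le hl hl2 ω N x)

/-- Sum over first visits of new sites. -/
noncomputable def newMass (q : Row d → Step d → ℝ≥0∞) (ω : Env d) : ℝ≥0∞ :=
  open Classical in ∑' η, if IsNew η then wt q ω 0 η else 0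

/-- The killed walk from the origin is killed almost surely when it finds only finitely many new
sites in the mean. -/
lemma kill_mass_eq (hl : 0 < lam) (hl2 : lam * bigD u ≤ 1 / 2) (ω : Env d)
    (hρ : ∀ x, 0 < rho u (ω x)) (hN : newMass (qw u lam) ω ≠ ∞) :
    1 ≤ ∑' γ, wt (qw u lam) ω 0 γ * gw u lam (ω (dsp γ)) := by
  classical
  set q := qw u lam
  set K := ∑' γ, wt q ω 0 γ * gw u lam (ω (dsp γ)) with K_def
  refine ENNReal.le_of_forall_pos_le_add fun ε hε _ => ?_
  have hε2 : (0 : ℝ≥0∞) < ε / 2 := ENNReal.div_pos (by simpa using hε.ne') (by simp)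
  obtain ⟨F, hF⟩ := (((ENNReal.tendsto_tsum_compl_atTop_zero hN).eventually
    (gt_mem_nhds hε2)).exists)
  set B : Finset (Site d) := insert 0 (F.image dsp) with B_def
  obtain ⟨b, hb, hbmin⟩ := B.exists_min_image (fun v => gw u lam (ω v)) (by simp [B_def])
  set c := gw u lam (ω b) with c_def
  have hc : c ≠ 0 := by simp [c_def, gw, mul_pos hl (hρ b)]
  have hc' : c ≠ ∞ := ENNReal.ofReal_ne_top
  let inside : List (Step d) → Prop := fun γ => ∀ v ∈ verts 0 γ ++ [dsp γ], v ∈ B
  have hin : ∑' γ, (if inside γ then wt q ω 0 γ else 0) ≤ c⁻¹ := by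
    rw [ENNReal.le_inv_iff_mul_le, ← ENNReal.tsum_mul_right]
    refine (ENNReal.tsum_le_tsum fun γ => ?_).trans (kill_mass_le hl.le hl2 ω 0)
    by_cases h : inside γ
    · rw [if_pos h, zero_add]
      exact mul_le_mul_right (hbmin _ (h _ (by simp))) _
    · simp [h]
  have hsum : ∑' N : ℕ, ∑' γ, (if γ.length = N ∧ inside γ then wt q ω 0 γ else 0) ≠ ∞ := by
    rw [ENNReal.tsum_comm]
    refine ne_top_of_le_ne_top (ENNReal.inv_ne_top.2 hc) (le_trans (le_of_eq ?_) hin)
    refine tsum_congr fun γ => ?_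
    rw [tsum_eq_single γ.length fun N hN => if_neg fun h => hN h.1.symm]
    simp
  obtain ⟨N, hNb⟩ := ((ENNReal.tendsto_atTop_zero_of_tsum_ne_top hsum).eventually
    (gt_mem_nhds hε2)).exists
  have hout : ∑' γ, (if γ.length = N ∧ ¬ inside γ then wt q ω 0 γ else 0) ≤ ε / 2 := by
    refine (tsum_le_split _ (fun z : List (Step d) × List (Step d) =>
      (if z.1 ∉ F ∧ IsNew z.1 then wt q ω 0 z.1 else 0) *
      (if z.2.length = N - z.1.length then wt q ω (dsp z.1) z.2 else 0)) fun γ hγ => ?_).trans ?_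
    · by_cases h : γ.length = N ∧ ¬ inside γ
      swap
      · simp [h] at hγ
      have h2 : ∃ v ∈ verts 0 γ ++ [0 + dsp γ], v ∈ ((B : Set (Site d))ᶜ) := by
        simpa [inside, not_forall] using h.2
      obtain ⟨η, δ, rfl, hpre, hend⟩ := exists_first h2
      refine ⟨η, δ, rfl, ?_⟩
      have hend' : dsp η ∉ B := by simpa using hend
      have hnew : IsNew η := fun hmem => hend' (by simpa using hpre _ hmem)
      have hF' : η ∉ F := fun hmem => hend' (by simp [B_def]; exact Or.inr ⟨η, hmem, rfl⟩)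
      have hlen : δ.length = N - η.length := by
        have := h.1; rw [List.length_append] at this; omega
      simp [h, hnew, hF', hlen, wt_append]
    · rw [ENNReal.tsum_prod']
      simp only [ENNReal.tsum_mul_left]
      refine (ENNReal.tsum_le_tsum (g := fun η => if η ∉ F ∧ IsNew η then wt q ω 0 η else 0)
        fun η => ?_).trans (le_trans (le_of_eq ?_) hF.le)
      · exact (mul_le_mul_right (len_le_one hl.le hl2 ω _ _) _).trans_eq (mul_one _)
      · refine (tsum_subtype_eq_of_support_subset (s := {η | η ∉ F}) ?_).symm.trans (tsum_congr ?_)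
        · intro η hη
          by_contra h
          simp_all
        · rintro ⟨η, hη⟩
          simp [show η ∉ F from hη]
  calc (1 : ℝ≥0∞) = (∑' γ, if γ.length = N then wt q ω 0 γ else 0)
        + ∑ γ ∈ short N, wt q ω 0 γ * gw u lam (ω (0 + dsp γ)) := (len_sum_le hl.le hl2 ω N 0).symm
    _ ≤ (ε / 2 + ε / 2) + K := by
        refine add_le_add ?_ ?_
        · calc _ = ∑' γ, ((if γ.length = N ∧ inside γ then wt q ω 0 γ else 0)
              + if γ.length = N ∧ ¬ inside γ then wt q ω 0 γ else 0) := tsum_congr fun γ => by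
                by_cases h : γ.length = N <;> by_cases h' : inside γ <;> simp [h, h']
            _ ≤ _ := by rw [ENNReal.tsum_add]; exact add_le_add hNb.le hout
        · simp only [zero_add]; exact ENNReal.sum_le_tsum _
    _ = K + ε := by rw [ENNReal.add_halves, add_comm]

variable {c R s κ : ℝ}

/-- The conclusion of `exists_drop`. -/
def Drop (u : Fin d → Fin k → ℝ) (c R s κ : ℝ) : Prop :=
  ∀ p : Row d, Balanced u c p → ∀ z : Site d,
    ∑ a, p.1 a * pot u R s (z + vec a) + κ * rho u p * pot u R (s + 1) z ≤ pot u R s z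

lemma green_le (hl : 0 ≤ lam) (hl2 : lam * bigD u ≤ 1 / 2) (hR : 0 < R) (hκ : 0 < κ)
    (hdrop : Drop u c R s κ) {ω : Env d} (hω : ∀ x, Balanced u c (ω x)) (x y : Site d) :
    ∑' γ, wt (qw u lam) ω x γ *
        (gw u lam (ω (x + dsp γ)) * ENNReal.ofReal (pot u R (s + 1) (x + dsp γ - y)))
      ≤ ENNReal.ofReal (lam / κ * pot u R s (x - y)) := by
  refine tsum_wt_le (F := fun z => gw u lam (ω z) * ENNReal.ofReal (pot u R (s + 1) (z - y)))
    (V := fun z => ENNReal.ofReal (lam / κ * pot u R s (z - y))) (fun z => ?_) x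
  have h1 := hdrop (ω z) (hω z) (z - y)
  have hk := kill_le hl hl2 (ω z)
  have hr := rho_nonneg (u := u) (ω z)
  have hp := fun w => (pot_pos (u := u) (s := s) hR w).le
  have hc : 0 ≤ lam / κ := div_nonneg hl hκ.le
  have hq : ∀ a, qw u lam (ω z) a * ENNReal.ofReal (lam / κ * pot u R s (z + vec a - y))
      ≤ ENNReal.ofReal ((ω z).1 a * (lam / κ * pot u R s (z - y + vec a))) := by
    intro a
    rw [qw, show z + vec a - y = z - y + vec a by abel,
      ← ENNReal.ofReal_mul (mul_nonneg ((ω z).2.1 a) (by linarith))]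
    refine ENNReal.ofReal_le_ofReal (mul_le_mul_of_nonneg_right ?_ (mul_nonneg hc (hp _)))
    exact mul_le_of_le_one_right ((ω z).2.1 a) (by linarith [mul_nonneg hl hr])
  refine (add_le_add le_rfl (Finset.sum_le_sum fun a _ => hq a)).trans ?_
  rw [gw, ← ENNReal.ofReal_mul (mul_nonneg hl hr), ← ENNReal.ofReal_sum_of_nonneg
    (fun a _ => mul_nonneg ((ω z).2.1 a) (mul_nonneg hc (hp _))),
    ← ENNReal.ofReal_add (mul_nonneg (mul_nonneg hl hr) (pot_pos hR _).le)
      (Finset.sum_nonneg fun a _ => mul_nonneg ((ω z).2.1 a) (mul_nonneg hc (hp _)))]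
  refine ENNReal.ofReal_le_ofReal ?_
  have h2 := mul_le_mul_of_nonneg_left h1 hc
  rw [mul_add, Finset.mul_sum] at h2
  have e : lam / κ * (κ * rho u (ω z) * pot u R (s + 1) (z - y))
      = lam * rho u (ω z) * pot u R (s + 1) (z - y) := by field_simp
  rw [e] at h2
  refine le_trans (le_of_eq ?_) h2
  rw [add_comm]
  congr 1
  exact Finset.sum_congr rfl fun a _ => by ring

/-- Mass of first hits of the set `Z` at `v`, from all starting points. -/
noncomputable def hitMass (q : Row d → Step d → ℝ≥0∞) (ω : Env d) (Z : Finset (Site d))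
    (v : Site d) : ℝ≥0∞ :=
  ∑' η, if ∀ w ∈ verts (v - dsp η) η, w ∉ Z then wt q ω (v - dsp η) η else 0

/-- The killed flow into the origin. -/
noncomputable def flow (u : Fin d → Fin k → ℝ) (lam : ℝ) (ω : Env d) : ℝ≥0∞ :=
  ∑' γ, wt (qw u lam) ω (-dsp γ) γ * gw u lam (ω 0)

lemma flow_le (hl : 0 ≤ lam) (hl2 : lam * bigD u ≤ 1 / 2) (hR : 0 < R) (hκ : 0 < κ)
    (hdrop : Drop u c R s κ) {ω : Env d} (hω : ∀ x, Balanced u c (ω x)) {Z : Finset (Site d)}
    (hZ : (0 : Site d) ∈ Z) :
    flow u lam ω ≤ ∑ v ∈ Z, ENNReal.ofReal (lam / κ * R ^ (s + 1) * pot u R s v) *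
      hitMass (qw u lam) ω Z v := by
  classical
  set q := qw u lam
  refine (tsum_le_split _ (fun z : List (Step d) × List (Step d) =>
    (if ∀ w ∈ verts (-dsp z.2 - dsp z.1) z.1, w ∉ Z then wt q ω (-dsp z.2 - dsp z.1) z.1 else 0) *
    (if -dsp z.2 ∈ Z then wt q ω (-dsp z.2) z.2 * gw u lam (ω 0) else 0)) fun γ _ => ?_).trans ?_
  · obtain ⟨η, δ, rfl, hpre, hend⟩ := exists_first (x := -dsp γ) (γ := γ)
      (S := (Z : Set (Site d))) ⟨0, by simp, hZ⟩
    have e1 : -dsp (η ++ δ) = -dsp δ - dsp η := by rw [dsp_append]; abel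
    have e2 : -dsp δ - dsp η + dsp η = -dsp δ := by abel
    rw [e1] at hpre hend
    rw [e2] at hend
    refine ⟨η, δ, rfl, ?_⟩
    simp only [e1, wt_append, e2]
    rw [if_pos (by simpa using hpre), if_pos (by simpa using hend), mul_assoc]
  rw [ENNReal.tsum_prod', ENNReal.tsum_comm]
  simp only [ENNReal.tsum_mul_right]
  show ∑' δ, hitMass q ω Z (-dsp δ) *
    (if -dsp δ ∈ Z then wt q ω (-dsp δ) δ * gw u lam (ω 0) else 0) ≤ _
  calc ∑' δ, hitMass q ω Z (-dsp δ) *
        (if -dsp δ ∈ Z then wt q ω (-dsp δ) δ * gw u lam (ω 0) else 0)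
      = ∑' δ, ∑ v ∈ Z, (if v + dsp δ = 0 then wt q ω v δ * gw u lam (ω (v + dsp δ)) else 0) *
          hitMass q ω Z v := by
        refine tsum_congr fun δ => ?_
        simp only [ite_mul, zero_mul, add_eq_zero_iff_eq_neg]
        rw [Finset.sum_ite_eq']
        split_ifs with h <;> simp [mul_comm]
    _ = ∑ v ∈ Z, (∑' δ, if v + dsp δ = 0 then wt q ω v δ * gw u lam (ω (v + dsp δ)) else 0) *
          hitMass q ω Z v := by
        rw [Summable.tsum_finsetSum fun _ _ => ENNReal.summable]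
        simp only [ENNReal.tsum_mul_right]
    _ ≤ _ := by
        gcongr with v
        refine (ENNReal.tsum_le_tsum fun δ => ?_).trans
          (((ENNReal.tsum_mul_left (a := ENNReal.ofReal (R ^ (s + 1)))).trans_le
            (mul_le_mul_right (green_le hl hl2 hR hκ hdrop hω v 0) _)).trans_eq ?_)
        · by_cases h : v + dsp δ = 0
          · have : pot u R (s + 1) 0 = R ^ (-(s + 1)) := by simp [pot, pr_zero, nsq]
            simp only [h, if_true, sub_zero, this]
            rw [mul_left_comm, mul_comm (gw u lam (ω 0)), ← mul_assoc (ENNReal.ofReal _),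
              ← ENNReal.ofReal_mul (Real.rpow_pos_of_pos hR _).le, ← Real.rpow_add hR]
            simp [q]
          · simp [h]
        · rw [← ENNReal.ofReal_mul (Real.rpow_pos_of_pos hR _).le, sub_zero]
          ring_nf

variable (μ : Measure (Row d)) [IsProbabilityMeasure μ]

lemma lintegral_shift {f : Env d → ℝ≥0∞} (hf : Measurable f) (z : Site d) :
    ∫⁻ ω, f (shiftEnv z ω) ∂iid μ = ∫⁻ ω, f ω ∂iid μ :=
  (shiftEnv_iid μ z).lintegral_comp hf

/-- `f` only depends on the rows at the sites of `S`. -/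
def DepOn (f : Env d → ℝ≥0∞) (S : Finset (Site d)) : Prop :=
  ∀ ω ω', (∀ x ∈ S, ω x = ω' x) → f ω = f ω'

lemma lintegral_mul_disjoint {f g : Env d → ℝ≥0∞} (hf : Measurable f) (hg : Measurable g)
    {S T : Finset (Site d)} (hfS : DepOn f S) (hgT : DepOn g T) (h : Disjoint S T) :
    ∫⁻ ω, f ω * g ω ∂iid μ = (∫⁻ ω, f ω ∂iid μ) * ∫⁻ ω, g ω ∂iid μ := by
  classical
  obtain ⟨p0⟩ : Nonempty (Row d) := μ.nonempty_of_neZero
  let ext' : (U : Finset (Site d)) → (U → Row d) → Env d :=
    fun U r x => if hx : x ∈ U then r ⟨x, hx⟩ else p0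
  have hext : ∀ U, Measurable (ext' U) := fun U => measurable_pi_lambda _ fun x => by
    by_cases hx : x ∈ U
    · simp only [ext', hx, dif_pos]; exact measurable_pi_apply _
    · simp only [ext', hx, dif_neg, not_false_eq_true]; exact measurable_const
  have hI : iIndepFun (fun (x : Site d) (ω : Env d) => ω x) (iid μ) :=
    iIndepFun_infinitePi (X := fun (_ : Site d) (p : Row d) => p) (fun _ => measurable_id)
  have h2 := (hI.indepFun_finset S T h fun x => measurable_pi_apply x).comp
    (hf.comp (hext S)) (hg.comp (hext T))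
  have e1 : (f ∘ ext' S) ∘ (fun (ω : Env d) (x : S) => ω x) = f := by
    funext ω; exact hfS _ _ fun x hx => by simp [ext', hx]
  have e2 : (g ∘ ext' T) ∘ (fun (ω : Env d) (x : T) => ω x) = g := by
    funext ω; exact hgT _ _ fun x hx => by simp [ext', hx]
  rw [e1, e2] at h2
  exact lintegral_mul_eq_lintegral_mul_lintegral_of_indepFun'' hf.aemeasurable hg.aemeasurable h2

lemma depOn_wt (q : Row d → Step d → ℝ≥0∞) (x : Site d) (γ : List (Step d)) :
    DepOn (fun ω => wt q ω x γ) (verts x γ).toFinset :=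
  fun _ _ h => wt_congr q x γ fun v hv => h v (List.mem_toFinset.2 hv)

lemma lintegral_wt_shift {q : Row d → Step d → ℝ≥0∞} (hq : ∀ a, Measurable fun p => q p a)
    (x : Site d) (γ : List (Step d)) :
    ∫⁻ ω, wt q ω x γ ∂iid μ = ∫⁻ ω, wt q ω 0 γ ∂iid μ := by
  rw [← lintegral_shift μ (measurable_wt hq 0 γ) x]
  simp [wt_shift]

lemma measurable_newMass : Measurable (newMass (d := d) (qw u lam)) := by
  classical
  refine Measurable.tsum fun η => ?_
  by_cases h : IsNew η <;> simp [h, measurable_wt (measurable_qw (u := u) (lam := lam))]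

/-- Few new sites before killing. -/
lemma newMass_mul_le (hl : 0 ≤ lam) (hl2 : lam * bigD u ≤ 1 / 2) :
    (∫⁻ ω, newMass (qw u lam) ω ∂iid μ) * ∫⁻ p, gw u lam p ∂μ ≤ 1 := by
  classical
  have hq := measurable_qw (u := u) (lam := lam)
  have hstep : ∀ η : List (Step d),
      (∫⁻ ω, (if IsNew η then wt (qw u lam) ω 0 η else 0) ∂iid μ) * ∫⁻ p, gw u lam p ∂μ
        ≤ ∫⁻ ω, wt (qw u lam) ω 0 η * gw u lam (ω (dsp η)) ∂iid μ := by
    intro η
    by_cases h : IsNew η
    swap
    · simp [h]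
    simp only [h, if_true]
    rw [lintegral_mul_disjoint μ (f := fun ω => wt (qw u lam) ω 0 η)
      (g := fun ω => gw u lam (ω (dsp η))) (measurable_wt hq 0 η)
      (measurable_gw.comp (measurable_pi_apply (dsp η))) (depOn_wt _ 0 η)
      (T := {dsp η}) (fun ω ω' he => by simp [he (dsp η) (by simp)])
      (Finset.disjoint_singleton_right.2 (by simpa [IsNew] using h))]
    refine le_of_eq (congrArg _ ?_)
    exact ((measurePreserving_eval_infinitePi (fun _ : Site d => μ) (dsp η)).lintegral_comp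
      measurable_gw).symm
  calc (∫⁻ ω, newMass (qw u lam) ω ∂iid μ) * ∫⁻ p, gw u lam p ∂μ
      = ∑' η, (∫⁻ ω, (if IsNew η then wt (qw u lam) ω 0 η else 0) ∂iid μ) *
          ∫⁻ p, gw u lam p ∂μ := by
        rw [ENNReal.tsum_mul_right]
        simp only [newMass]
        rw [lintegral_tsum fun η => ?_]
        by_cases h : IsNew η <;> simp [h, (measurable_wt hq 0 η).aemeasurable]
    _ ≤ ∑' η, ∫⁻ ω, wt (qw u lam) ω 0 η * gw u lam (ω (dsp η)) ∂iid μ := ENNReal.tsum_le_tsum hstep
    _ = ∫⁻ ω, ∑' η, wt (qw u lam) ω 0 η * gw u lam (ω (dsp η)) ∂iid μ :=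
        (lintegral_tsum fun η => ((measurable_wt hq 0 η).mul
          (measurable_gw.comp (measurable_pi_apply _))).aemeasurable).symm
    _ ≤ ∫⁻ _, 1 ∂iid μ := lintegral_mono fun ω => by simpa using kill_mass_le hl hl2 ω 0
    _ = 1 := by simp

lemma lintegral_flow_eq :
    ∫⁻ ω, flow u lam ω ∂iid μ = ∫⁻ ω, ∑' γ, wt (qw u lam) ω 0 γ * gw u lam (ω (dsp γ)) ∂iid μ := by
  have hq := measurable_qw (u := u) (lam := lam)
  have hm : ∀ (x z : Site d) γ, Measurable fun ω => wt (qw u lam) ω x γ * gw u lam (ω z) :=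
    fun x z γ => (measurable_wt hq x γ).mul (measurable_gw.comp (measurable_pi_apply z))
  simp only [flow]
  rw [lintegral_tsum fun γ => (hm _ _ γ).aemeasurable, lintegral_tsum fun γ => (hm _ _ γ).aemeasurable]
  refine tsum_congr fun γ => ?_
  rw [← lintegral_shift μ (hm (-dsp γ) 0 γ) (dsp γ)]
  simp [wt_shift, shiftEnv]

/-- The flow has mean one. -/
lemma lintegral_flow (hl : 0 < lam) (hl2 : lam * bigD u ≤ 1 / 2)
    (hρ : ∀ᵐ ω ∂iid μ, ∀ x, 0 < rho u (ω x)) (hg : ∫⁻ p, gw u lam p ∂μ ≠ 0) :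
    ∫⁻ ω, flow u lam ω ∂iid μ = 1 := by
  rw [lintegral_flow_eq]
  refine le_antisymm ((lintegral_mono fun ω => by simpa using kill_mass_le hl.le hl2 ω 0).trans_eq
    (by simp)) ?_
  have hfin : ∫⁻ ω, newMass (qw u lam) ω ∂iid μ ≠ ∞ := by
    intro h
    have := newMass_mul_le μ hl.le hl2
    rw [h, ENNReal.top_mul hg] at this
    simp at this
  calc (1 : ℝ≥0∞) = ∫⁻ _, 1 ∂iid μ := by simp
    _ ≤ _ := lintegral_mono_ae ?_
  filter_upwards [hρ, ae_lt_top measurable_newMass hfin] with ω h1 h2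
  exact kill_mass_eq hl hl2 ω h1 h2.ne

end Vale.Agent.P147.Proj
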