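import Vale.Agent.P147.Markov
import Vale.Agent.P147.Bernoulli

/-!
# Finite paths with killing

Weights of finite step lists, the Lyapunov bound for weighted sums over step lists, and splittings.
-/

open MeasureTheory Set Filter Topology
open scoped ENNReal

namespace Vale.Agent.P147.Proj

variable {d : ℕ}

/-- The displacement of a step list. -/
def dsp (γ : List (Step d)) : Site d := (γ.map vec).sum

/-- The sites from which the steps of `γ` are taken. -/
def verts : Site d → List (Step d) → List (Site d)
  | _, [] => []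
  | x, a :: γ => x :: verts (x + vec a) γ

/-- The weight of a step list for the step weights `q`. -/
noncomputable def wt (q : Row d → Step d → ℝ≥0∞) (ω : Env d) : Site d → List (Step d) → ℝ≥0∞
  | _, [] => 1
  | x, a :: γ => q (ω x) a * wt q ω (x + vec a) γ

@[simp] lemma dsp_nil : dsp ([] : List (Step d)) = 0 := rfl

@[simp] lemma dsp_cons (a : Step d) (γ : List (Step d)) : dsp (a :: γ) = vec a + dsp γ := rfl

lemma dsp_append (γ δ : List (Step d)) : dsp (γ ++ δ) = dsp γ + dsp δ := by
  simp [dsp]

lemma verts_shift (x z : Site d) (γ : List (Step d)) :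
    verts (x + z) γ = (verts x γ).map (· + z) := by
  induction γ generalizing x with
  | nil => rfl
  | cons a γ ih => simp [verts, ← ih, add_right_comm]

lemma verts_length (x : Site d) (γ : List (Step d)) : (verts x γ).length = γ.length := by
  induction γ generalizing x with
  | nil => rfl
  | cons a γ ih => simp [verts, ih]

lemma wt_append (q : Row d → Step d → ℝ≥0∞) (ω : Env d) (x : Site d) (γ δ : List (Step d)) :
    wt q ω x (γ ++ δ) = wt q ω x γ * wt q ω (x + dsp γ) δ := by
  induction γ generalizing x with
  | nil => simp [wt]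
  | cons a γ ih => simp [wt, ih, mul_assoc, add_assoc]

lemma wt_shift (q : Row d → Step d → ℝ≥0∞) (ω : Env d) (x z : Site d) (γ : List (Step d)) :
    wt q (shiftEnv z ω) x γ = wt q ω (x + z) γ := by
  induction γ generalizing x with
  | nil => rfl
  | cons a γ ih => simp [wt, shiftEnv, ih, add_right_comm]

lemma wt_congr (q : Row d → Step d → ℝ≥0∞) {ω ω' : Env d} (x : Site d) (γ : List (Step d))
    (h : ∀ v ∈ verts x γ, ω v = ω' v) : wt q ω x γ = wt q ω' x γ := by
  induction γ generalizing x with
  | nil => rfl
  | cons a γ ih =>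
      simp only [verts, List.mem_cons, forall_eq_or_imp] at h
      simp [wt, h.1, ih _ h.2]

lemma measurable_wt {q : Row d → Step d → ℝ≥0∞} (hq : ∀ a, Measurable fun p => q p a) (x : Site d)
    (γ : List (Step d)) : Measurable fun ω => wt q ω x γ := by
  induction γ generalizing x with
  | nil => exact measurable_const
  | cons a γ ih => exact ((hq a).comp (measurable_pi_apply x)).mul (ih _)

/-- The step lists of length less than `N`. -/
def short : ℕ → Finset (List (Step d))
  | 0 => ∅
  | N + 1 => insert [] (((Finset.univ : Finset (Step d)) ×ˢ short N).image fun z => z.1 :: z.2)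

lemma mem_short {N : ℕ} {γ : List (Step d)} : γ ∈ short N ↔ γ.length < N := by
  induction N generalizing γ with
  | zero => simp [short]
  | succ N ih =>
      cases γ with
      | nil => simp [short]
      | cons a γ => simp [short, ih]

lemma sum_short_succ (N : ℕ) (f : List (Step d) → ℝ≥0∞) :
    ∑ γ ∈ short (N + 1), f γ = f [] + ∑ a, ∑ γ ∈ short N, f (a :: γ) := by
  rw [short, Finset.sum_insert (by simp), Finset.sum_image, Finset.sum_product]
  intro z _ w _ h
  simp only [List.cons.injEq] at h
  exact Prod.ext h.1 h.2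

lemma tsum_eq_iSup_short (f : List (Step d) → ℝ≥0∞) :
    ∑' γ, f γ = ⨆ N, ∑ γ ∈ short N, f γ :=
  ENNReal.tsum_eq_iSup_sum' _ fun t =>
    ⟨t.sup List.length + 1, fun _ hγ => mem_short.2 (Nat.lt_succ_of_le (Finset.le_sup hγ))⟩

/-- Superharmonic bound. -/
lemma tsum_wt_le {q : Row d → Step d → ℝ≥0∞} {ω : Env d} {F V : Site d → ℝ≥0∞}
    (h : ∀ y, F y + ∑ a, q (ω y) a * V (y + vec a) ≤ V y) (x : Site d) :
    ∑' γ, wt q ω x γ * F (x + dsp γ) ≤ V x := by
  rw [tsum_eq_iSup_short]
  refine iSup_le fun N => ?_
  induction N generalizing x with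
  | zero => simp [short]
  | succ N ih =>
      rw [sum_short_succ]
      refine le_trans ?_ (h x)
      simp only [wt, one_mul, dsp_nil, add_zero, dsp_cons]
      gcongr with a
      rw [show (∑ γ ∈ short N, q (ω x) a * wt q ω (x + vec a) γ * F (x + (vec a + dsp γ)))
        = q (ω x) a * ∑ γ ∈ short N, wt q ω (x + vec a) γ * F (x + vec a + dsp γ) from ?_]
      · gcongr
        exact ih _
      · rw [Finset.mul_sum]
        simp [mul_assoc, add_assoc]

/-- A splitting of lists bounds a sum over lists. -/
lemma tsum_le_split (f : List (Step d) → ℝ≥0∞) (g : List (Step d) × List (Step d) → ℝ≥0∞)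
    (h : ∀ γ, f γ ≠ 0 → ∃ η δ, γ = η ++ δ ∧ f γ ≤ g (η, δ)) : ∑' γ, f γ ≤ ∑' z, g z := by
  classical
  choose η δ hsplit hle using fun γ : Function.support f => h γ γ.2
  rw [← tsum_subtype_eq_of_support_subset (Set.Subset.refl (Function.support f))]
  refine (ENNReal.tsum_le_tsum fun γ => hle γ).trans
    (ENNReal.tsum_comp_le_tsum_of_injective (f := fun γ => (η γ, δ γ)) (fun a b hab => ?_) g)
  simp only [Prod.mk.injEq] at hab
  exact Subtype.ext (by rw [hsplit a, hsplit b, hab.1, hab.2])

/-- First visit of a set. -/
lemma exists_first {x : Site d} {γ : List (Step d)} {S : Set (Site d)}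
    (h : ∃ v ∈ verts x γ ++ [x + dsp γ], v ∈ S) :
    ∃ η δ, γ = η ++ δ ∧ (∀ v ∈ verts x η, v ∉ S) ∧ x + dsp η ∈ S := by
  induction γ generalizing x with
  | nil => exact ⟨[], [], rfl, by simp [verts], by simpa [verts] using h⟩
  | cons a γ ih =>
      by_cases hx : x ∈ S
      · exact ⟨[], a :: γ, rfl, by simp [verts], by simpa using hx⟩
      obtain ⟨η, δ, rfl, h1, h2⟩ := ih (x := x + vec a) (by
        obtain ⟨v, hv, hvS⟩ := h
        refine ⟨v, ?_, hvS⟩
        simp only [verts, List.cons_append, List.mem_cons, dsp_cons] at hv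
        rcases hv with rfl | hv
        · exact absurd hvS hx
        · simpa [add_assoc] using hv)
      exact ⟨a :: η, δ, rfl, by simpa [verts, hx] using h1, by simpa [add_assoc] using h2⟩

/-- The finite set of visited sites, the last one included. -/
noncomputable def trail (x : Site d) (γ : List (Step d)) : Finset (Site d) :=
  (verts x γ ++ [x + dsp γ]).toFinset

lemma end_mem_trail (x : Site d) (γ : List (Step d)) : x + dsp γ ∈ trail x γ := by simp [trail]

lemma verts_subset_trail (x : Site d) (γ : List (Step d)) :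
    ∀ v ∈ verts x γ, v ∈ trail x γ := fun v hv => by simp [trail, hv]

lemma trail_shift (x z : Site d) (γ : List (Step d)) :
    trail (x + z) γ = (trail x γ).image (· + z) := by
  ext v
  simp only [trail, verts_shift, List.mem_toFinset, List.mem_append, List.mem_singleton,
    List.mem_map, Finset.mem_image]
  constructor
  · rintro (⟨a, ha, rfl⟩ | rfl)
    · exact ⟨a, Or.inl ha, rfl⟩
    · exact ⟨x + dsp γ, Or.inr rfl, by abel⟩
  · rintro ⟨a, ha | rfl, rfl⟩
    · exact Or.inl ⟨a, ha, rfl⟩
    · exact Or.inr (by abel)

/-- The step list ends at a site where it has not been before. -/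
def IsNew (γ : List (Step d)) : Prop := dsp γ ∉ verts 0 γ

lemma isNew_of_avoid {x v : Site d} {γ : List (Step d)} (he : x + dsp γ = v)
    (h : v ∉ verts x γ) : IsNew γ := by
  intro hmem
  have hx : verts x γ = (verts 0 γ).map (· + x) := by simpa using verts_shift 0 x γ
  apply h
  rw [hx, List.mem_map]
  exact ⟨dsp γ, hmem, by rw [add_comm, he]⟩

end Vale.Agent.P147.Proj
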