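import Vale.Agent.P147.Proj.Moment

/-!
# The second moment of the killed flow
-/

open MeasureTheory Set Filter Topology ProbabilityTheory
open scoped ENNReal

namespace Vale.Agent.P147.Proj

variable {d k : ℕ} {u : Fin d → Fin k → ℝ} {lam c : ℝ}

/-- A sum over the sites of the trail is a sum over first visits. -/
lemma tsum_trail_le (f : List (Step d) → Site d → ℝ≥0∞) :
    ∑' γ, ∑ v ∈ trail 0 γ, f γ v ≤
      open Classical in ∑' η, if IsNew η then ∑' δ, f (η ++ δ) (dsp η) else 0 := by
  classical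
  have hs : ∑' γ, ∑ v ∈ trail 0 γ, f γ v
      = ∑' z : (γ : List (Step d)) × {v // v ∈ trail 0 γ}, f z.1 z.2 := by
    rw [ENNReal.tsum_sigma']
    exact tsum_congr fun γ => (Finset.tsum_subtype (trail 0 γ) fun v => f γ v).symm
  rw [hs]
  have hex : ∀ z : (γ : List (Step d)) × {v // v ∈ trail 0 γ},
      ∃ η δ, z.1 = η ++ δ ∧ IsNew η ∧ dsp η = z.2 := by
    rintro ⟨γ, v, hv⟩
    obtain ⟨η, δ, h1, h2, h3⟩ := exists_first (x := (0 : Site d)) (γ := γ)
      (S := ({v} : Set (Site d))) ⟨v, by simpa [trail, or_comm] using hv, rfl⟩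
    have h4 : dsp η = v := by simpa using h3
    exact ⟨η, δ, h1, fun hm => h2 _ hm (by simp [h4]), h4⟩
  choose η δ h1 h2 h3 using hex
  calc ∑' z : (γ : List (Step d)) × {v // v ∈ trail 0 γ}, f z.1 z.2
      ≤ ∑' z, (fun w : List (Step d) × List (Step d) =>
          if IsNew w.1 then f (w.1 ++ w.2) (dsp w.1) else 0) (η z, δ z) :=
        ENNReal.tsum_le_tsum fun z => by simp [h2 z, ← h1 z, h3 z]
    _ ≤ ∑' w : List (Step d) × List (Step d),
          if IsNew w.1 then f (w.1 ++ w.2) (dsp w.1) else 0 := by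
        refine ENNReal.tsum_comp_le_tsum_of_injective (f := fun z => (η z, δ z)) ?_ _
        rintro z w hzw
        simp only [Prod.mk.injEq] at hzw
        have e1 : z.1 = w.1 := by rw [h1 z, h1 w, hzw.1, hzw.2]
        have e2 : (z.2 : Site d) = w.2 := by rw [← h3 z, ← h3 w, hzw.1]
        obtain ⟨γ, v⟩ := z
        obtain ⟨γ', v'⟩ := w
        obtain rfl : γ = γ' := e1
        obtain rfl : v = v' := Subtype.ext e2
        rfl
    _ = _ := by
        rw [ENNReal.tsum_prod']
        exact tsum_congr fun e => by by_cases h : IsNew e <;> simp [h]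

variable (μ : Measure (Row d)) [IsProbabilityMeasure μ]

lemma hitMass_lintegral_le (Z : Finset (Site d)) {v : Site d} (hv : v ∈ Z) :
    ∫⁻ ω, hitMass (qw u lam) ω Z v ∂iid μ ≤ ∫⁻ ω, newMass (qw u lam) ω ∂iid μ := by
  classical
  have hq := measurable_qw (u := u) (lam := lam)
  unfold hitMass newMass
  rw [lintegral_tsum fun η => ?_, lintegral_tsum fun η => ?_]
  · refine ENNReal.tsum_le_tsum fun η => ?_
    by_cases h : ∀ w ∈ verts (v - dsp η) η, w ∉ Z
    · have hnew : IsNew η :=
        isNew_of_avoid (x := v - dsp η) (sub_add_cancel v _) fun hm => h v hm hv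
      simp only [if_pos h, if_pos hnew]
      exact (lintegral_wt_shift μ hq _ _).le
    · simp [if_neg h]
  · by_cases h : IsNew η <;> simp [h, (measurable_wt hq 0 η).aemeasurable]
  · split_ifs
    · exact (measurable_wt hq _ η).aemeasurable
    · exact aemeasurable_const

lemma lintegral_path_mul_hit (γ : List (Step d)) {v : Site d} (hv : v ∈ trail (-dsp γ) γ) :
    ∫⁻ ω, wt (qw u lam) ω (-dsp γ) γ * gw u lam (ω 0) *
        hitMass (qw u lam) ω (trail (-dsp γ) γ) v ∂iid μ
      ≤ (∫⁻ ω, wt (qw u lam) ω (-dsp γ) γ * gw u lam (ω 0) ∂iid μ) *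
          ∫⁻ ω, newMass (qw u lam) ω ∂iid μ := by
  classical
  set Z := trail (-dsp γ) γ
  have hq := measurable_qw (u := u) (lam := lam)
  have hf : Measurable fun ω : Env d => wt (qw u lam) ω (-dsp γ) γ * gw u lam (ω 0) :=
    (measurable_wt hq _ γ).mul (measurable_gw.comp (measurable_pi_apply 0))
  have hfS : DepOn (fun ω : Env d => wt (qw u lam) ω (-dsp γ) γ * gw u lam (ω 0)) Z := by
    intro ω ω' he
    simp only
    rw [wt_congr _ _ γ fun w hw => he w (verts_subset_trail _ γ w hw),
      he 0 (by simpa using end_mem_trail (-dsp γ) γ)]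
  refine le_trans ?_ (mul_le_mul_right (hitMass_lintegral_le (u := u) (lam := lam) μ Z hv) _)
  unfold hitMass
  have hm : ∀ η : List (Step d), Measurable fun ω : Env d =>
      if ∀ w ∈ verts (v - dsp η) η, w ∉ Z then wt (qw u lam) ω (v - dsp η) η else 0 := by
    intro η
    split_ifs
    · exact measurable_wt hq _ η
    · exact measurable_const
  simp only [← ENNReal.tsum_mul_left]
  have hfm : ∀ η : List (Step d), Measurable fun ω : Env d =>
      wt (qw u lam) ω (-dsp γ) γ * gw u lam (ω 0) *
        if ∀ w ∈ verts (v - dsp η) η, w ∉ Z then wt (qw u lam) ω (v - dsp η) η else 0 :=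
    fun η => hf.mul (hm η)
  rw [lintegral_tsum fun η => (hfm η).aemeasurable,
    lintegral_tsum fun η => (hm η).aemeasurable, ← ENNReal.tsum_mul_left]
  refine ENNReal.tsum_le_tsum fun η => le_of_eq ?_
  by_cases h : ∀ w ∈ verts (v - dsp η) η, w ∉ Z
  · simp only [if_pos h]
    refine lintegral_mul_disjoint μ hf (measurable_wt hq _ η) hfS (depOn_wt _ _ η) ?_
    rw [Finset.disjoint_right]
    intro w hw
    exact h w (List.mem_toFinset.1 hw)
  · simp [if_neg h]

/-- The flow has a second moment which does not grow as the killing rate tends to zero. -/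
lemma lintegral_flow_sq {R s κ κ' : ℝ} (hl : 0 ≤ lam) (hl2 : lam * bigD u ≤ 1 / 2) (hR : 0 < R)
    (hs : 0 ≤ s) (hκ : 0 < κ) (hκ' : 0 < κ') (h1 : Drop u c R (s + 1) κ) (h2 : Drop u c R s κ')
    (hgood : ∀ᵐ ω ∂iid μ, ∀ x, Balanced u c (ω x)) :
    ∫⁻ ω, flow u lam ω * flow u lam ω ∂iid μ ≤
      ENNReal.ofReal (lam / κ * R ^ (s + 1 + 1)) * ENNReal.ofReal (lam / κ' * R ^ (-s)) *
        ((∫⁻ ω, newMass (qw u lam) ω ∂iid μ) * ∫⁻ ω, newMass (qw u lam) ω ∂iid μ) := by
  classical
  set q := qw u lam
  have hq : ∀ a, Measurable fun p => q p a := measurable_qw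
  set EN := ∫⁻ ω, newMass q ω ∂iid μ
  set C : Site d → ℝ≥0∞ := fun v =>
    ENNReal.ofReal (lam / κ * R ^ (s + 1 + 1) * pot u R (s + 1) v)
  set P : List (Step d) → Env d → ℝ≥0∞ := fun γ ω => wt q ω (-dsp γ) γ * gw u lam (ω 0)
  have hP : ∀ γ, Measurable (P γ) := fun γ =>
    (measurable_wt hq _ γ).mul (measurable_gw.comp (measurable_pi_apply 0))
  have hH : ∀ Z v, Measurable fun ω => hitMass q ω Z v := fun Z v =>
    Measurable.tsum fun η => by split_ifs <;> simp [measurable_wt hq]
  have hPH : ∀ γ Z v, Measurable fun ω => P γ ω * hitMass q ω Z v :=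
    fun γ Z v => (hP γ).mul (hH Z v)
  calc ∫⁻ ω, flow u lam ω * flow u lam ω ∂iid μ
      ≤ ∫⁻ ω, ∑' γ, ∑ v ∈ trail (-dsp γ) γ,
          C v * (P γ ω * hitMass q ω (trail (-dsp γ) γ) v) ∂iid μ := by
        refine lintegral_mono_ae ?_
        filter_upwards [hgood] with ω hω
        conv_lhs => arg 1; rw [flow]
        rw [← ENNReal.tsum_mul_right]
        refine ENNReal.tsum_le_tsum fun γ => ?_
        refine (mul_le_mul_right (flow_le (Z := trail (-dsp γ) γ) hl hl2 hR hκ h1 hω
          (by simpa using end_mem_trail (-dsp γ) γ)) _).trans (le_of_eq ?_)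
        rw [Finset.mul_sum]
        exact Finset.sum_congr rfl fun v _ => by ring
    _ = ∑' γ, ∑ v ∈ trail (-dsp γ) γ,
          C v * ∫⁻ ω, P γ ω * hitMass q ω (trail (-dsp γ) γ) v ∂iid μ := by
        rw [lintegral_tsum fun γ => (Finset.measurable_sum _ fun v _ =>
          (hPH γ (trail (-dsp γ) γ) v).const_mul _).aemeasurable]
        refine tsum_congr fun γ => ?_
        rw [lintegral_finsetSum _ fun v _ => (hPH γ (trail (-dsp γ) γ) v).const_mul _]
        exact Finset.sum_congr rfl fun v _ => lintegral_const_mul _ (hPH γ _ v)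
    _ ≤ ∑' γ, ∑ v ∈ trail (-dsp γ) γ, C v * ((∫⁻ ω, P γ ω ∂iid μ) * EN) :=
        ENNReal.tsum_le_tsum fun γ => Finset.sum_le_sum fun v hv =>
          mul_le_mul_right (lintegral_path_mul_hit μ γ hv) _
    _ = EN * ∫⁻ ω, ∑' γ, ∑ v ∈ trail 0 γ,
          C (v - dsp γ) * (wt q ω 0 γ * gw u lam (ω (dsp γ))) ∂iid μ := by
        have hT : ∀ γ, Measurable fun ω : Env d => wt q ω 0 γ * gw u lam (ω (dsp γ)) := fun γ =>
          (measurable_wt hq 0 γ).mul (measurable_gw.comp (measurable_pi_apply _))
        rw [lintegral_tsum fun γ => (Finset.measurable_sum _ fun v _ =>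
          (hT γ).const_mul _).aemeasurable, ← ENNReal.tsum_mul_left]
        refine tsum_congr fun γ => ?_
        rw [lintegral_finsetSum _ fun v _ => (hT γ).const_mul _, Finset.mul_sum]
        have e : trail (-dsp γ) γ = (trail 0 γ).image (· + -dsp γ) := by
          simpa using trail_shift 0 (-dsp γ) γ
        rw [e, Finset.sum_image fun a _ b _ h => add_right_cancel h]
        refine Finset.sum_congr rfl fun v _ => ?_
        rw [lintegral_const_mul _ (hT γ), ← lintegral_shift μ (hP γ) (dsp γ), sub_eq_add_neg]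
        simp only [P, wt_shift, shiftEnv, neg_add_cancel, zero_add]
        ring
    _ ≤ EN * ∫⁻ ω, ENNReal.ofReal (lam / κ * R ^ (s + 1 + 1)) *
          ENNReal.ofReal (lam / κ' * R ^ (-s)) * newMass q ω ∂iid μ := by
        refine mul_le_mul_right (lintegral_mono_ae ?_) _
        filter_upwards [hgood] with ω hω
        refine (tsum_trail_le _).trans ?_
        rw [newMass, ← ENNReal.tsum_mul_left]
        refine ENNReal.tsum_le_tsum fun η => ?_
        by_cases h : IsNew η
        swap
        · simp [h]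
        simp only [h, if_true]
        calc ∑' δ, C (dsp η - dsp (η ++ δ)) * (wt q ω 0 (η ++ δ) * gw u lam (ω (dsp (η ++ δ))))
            = (ENNReal.ofReal (lam / κ * R ^ (s + 1 + 1)) * wt q ω 0 η) *
              ∑' δ, wt q ω (dsp η) δ * (gw u lam (ω (dsp η + dsp δ)) *
                ENNReal.ofReal (pot u R (s + 1) (dsp η + dsp δ - dsp η))) := by
              rw [← ENNReal.tsum_mul_left]
              refine tsum_congr fun δ => ?_
              simp only [C, wt_append, dsp_append, zero_add, sub_add_cancel_left,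
                add_sub_cancel_left, pot_neg,
                ENNReal.ofReal_mul (mul_nonneg (div_nonneg hl hκ.le) (Real.rpow_nonneg hR.le _))]
              ring
          _ ≤ _ := by
              refine (mul_le_mul_right ((green_le hl hl2 hR hκ' h2 hω (dsp η) (dsp η)).trans
                (ENNReal.ofReal_le_ofReal (mul_le_mul_of_nonneg_left (pot_le hR hs _)
                  (div_nonneg hl hκ'.le)))) _).trans (le_of_eq ?_)
              ring
    _ = _ := by
        rw [lintegral_const_mul _ (measurable_newMass)]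
        ring

end Vale.Agent.P147.Proj
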